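import Crest.Agent.X261.Plk.C

/-!
# Row 261, GAUSS-LIN (helper91), file `D`: the form `η^r ∧ τ` of a horizontal form `S = η ∧ τ`

`th` is a family of `q` covectors, `τ = Top.wdg th`, `S` a vector valued `(q+1)`-form killed by the
`th k`.  `G` is any alternating `r`-linear map.

* `eta S J`, `w1 τ η = η ∧ τ`, `Wr G τ η = η^r ∧ τ`, `Th G th S J`, `Sp G th S`;
* `Hor.tau_smul`, `Hor.Th_eq`, naturality `Sp_gam`, `Sp_lin`, `Sp_smul`, `Sp_map`;
* `Hor.basis`, `Hor.Sp_eq_zero`, `Hor.par`, `Hor.finrank_kerS`;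
* norm bounds and differentiability.
-/

set_option autoImplicit false
set_option linter.unusedSectionVars false

open Finset Matrix Filter Topology

namespace Crest.Agent.X261.Plk

open Crest.Agent.R273.Fock_243

noncomputable section

variable {n q r : ℕ}

section alg

variable {H H' E E' : Type*} [AddCommGroup H] [Module ℂ H] [AddCommGroup H'] [Module ℂ H']
  [AddCommGroup E] [Module ℂ E] [AddCommGroup E'] [Module ℂ E']

/-- horizontal `(q+1)`-forms -/
structure Hor (th : Fin q → Fin n → ℂ) (S : FI n → H) : Prop where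
  deg : Deg (q + 1) S
  hor : ∀ k, mv (eW (th k)) S = 0

/-- the one-form `v ↦ S(v, e_J)` -/
def eta (S : FI n → H) (J : FI n) : Fin n → H := fun b => mv (iW (ep b)) S J

/-- `η ∧ τ` -/
def w1 (τ : FI n → ℂ) (η : Fin n → H) : FI n → H :=
  fun I => ∑ b, (eW (ep b : Fin n → ℂ) *ᵥ τ) I • η b

/-- `η^r ∧ τ` -/
def Wr (G : H [⋀^Fin r]→ₗ[ℂ] E) (τ : FI n → ℂ) (η : Fin n → H) : FI n → E :=
  fun I => ∑ b : Fin r → Fin n, (EW n r (fun k => ep (b k)) *ᵥ τ) I • G fun k => η (b k)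

/-- the polynomial version -/
def Th (G : H [⋀^Fin r]→ₗ[ℂ] E) (th : Fin q → Fin n → ℂ) (S : FI n → H) (J : FI n) : FI n → E :=
  Wr G (Top.wdg th) (eta S J)

open Classical in
/-- the form `η^r ∧ τ` of `S = η ∧ τ` -/
def Sp (G : H [⋀^Fin r]→ₗ[ℂ] E) (th : Fin q → Fin n → ℂ) (S : FI n → H) : FI n → E :=
  if h : ∃ J, Top.wdg th J ≠ 0 then (Top.wdg th h.choose)⁻¹ ^ r • Th G th S h.choose else 0

variable (G : H [⋀^Fin r]→ₗ[ℂ] E) {th : Fin q → Fin n → ℂ} {S : FI n → H}

theorem eta_sum (S : FI n → H) (J : FI n) (w : Fin n → ℂ) :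
    ∑ b, w b • eta S J b = mv (iW w) S J := (mv_iW_eq_sum w S J).symm

theorem eta_mem {T : Submodule ℂ H} (hS : ∀ I, S I ∈ T) (J : FI n) (b : Fin n) :
    eta S J b ∈ T := mv_mem hS _ _

theorem eq_sum_ep (x : Fin n → ℂ) : x = ∑ j, x j • (ep j : Fin n → ℂ) := by
  ext k
  simp [Finset.sum_apply, Pi.single_apply]

theorem eW_sum_smul {α : Type*} (s : Finset α) (c : α → ℂ) (v : α → Fin n → ℂ) :
    eW (∑ a ∈ s, c a • v a) = ∑ a ∈ s, c a • eW (v a) := by
  refine (map_sum (eWL n) (fun a => c a • v a) s).trans ?_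
  exact Finset.sum_congr rfl fun a _ => eW_smul _ _

theorem mem_span_self {ι : Type*} (S : ι → H) (I : ι) : S I ∈ Submodule.span ℂ (Set.range S) :=
  Submodule.subset_span ⟨I, rfl⟩

theorem w1_dec {α : Type*} [Fintype α] (τ : FI n → ℂ) {η : Fin n → H} {l : α → Fin n → ℂ}
    {β : α → H} (h : ∀ j, η j = ∑ a, l a j • β a) (I : FI n) :
    w1 τ η I = ∑ a, (eW (l a) *ᵥ τ) I • β a := by
  simp only [w1, h, Finset.smul_sum, smul_smul]
  rw [Finset.sum_comm]
  refine Finset.sum_congr rfl fun a _ => ?_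
  rw [eW_eq_sum (l a), Matrix.sum_mulVec, Finset.sum_apply, Finset.sum_smul]
  refine Finset.sum_congr rfl fun j _ => ?_
  rw [Matrix.smul_mulVec, Pi.smul_apply, smul_eq_mul, mul_comm]

theorem Wr_dec {α : Type*} [Fintype α] [DecidableEq α] (τ : FI n → ℂ) {η : Fin n → H}
    {l : α → Fin n → ℂ} {β : α → H} (h : ∀ j, η j = ∑ a, l a j • β a) (I : FI n) :
    Wr G τ η I = ∑ a : Fin r → α, (EW n r (fun k => l (a k)) *ᵥ τ) I • G fun k => β (a k) := by
  have h1 : ∀ b : Fin r → Fin n, (G fun k => η (b k))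
      = ∑ a : Fin r → α, (∏ k, l (a k) (b k)) • G fun k => β (a k) := by
    intro b
    simp only [h]
    rw [← G.coe_multilinearMap, MultilinearMap.map_sum]
    refine Finset.sum_congr rfl fun a _ => ?_
    rw [MultilinearMap.map_smul_univ]
  have h2 : ∀ a : Fin r → α, EW n r (fun k => l (a k))
      = ∑ b : Fin r → Fin n, (∏ k, l (a k) (b k)) • EW n r fun k => ep (b k) := by
    intro a
    have : (fun k => l (a k)) = fun k => ∑ j, l (a k) j • (ep j : Fin n → ℂ) :=
      funext fun k => eq_sum_ep _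
    rw [this, ← (EW n r).coe_multilinearMap, MultilinearMap.map_sum]
    refine Finset.sum_congr rfl fun b _ => ?_
    rw [MultilinearMap.map_smul_univ]
  simp only [Wr, h1, h2, Finset.smul_sum, smul_smul, Matrix.sum_mulVec, Finset.sum_apply,
    Finset.sum_smul, Matrix.smul_mulVec, Pi.smul_apply, smul_eq_mul]
  rw [Finset.sum_comm]
  refine Finset.sum_congr rfl fun a _ => Finset.sum_congr rfl fun b _ => ?_
  rw [mul_comm]

theorem EW_wdg_of_eq {v : Fin r → Fin n → ℂ} {i : Fin r} {k : Fin q} (h : v i = th k) :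
    EW n r v *ᵥ Top.wdg th = 0 := by
  rw [← wdg_append, wdg_eq, (EW n (r + q)).map_eq_zero_of_eq (Fin.append v th)
    (i := Fin.castAdd q i) (j := Fin.natAdd r k) (by simpa using h), Matrix.zero_mulVec]
  intro h'
  have := congrArg Fin.val h'
  simp at this
  omega

theorem fac_of_ker {η η' : Fin n → H}
    (h : ∀ w ∈ kerF th, ∑ j, w j • η j = ∑ j, w j • η' j) :
    ∃ β : Fin q → H, ∀ j, η j = η' j + ∑ k, th k j • β k := by
  obtain ⟨β, hβ⟩ := exists_fac (π := th) (η := fun j => η j - η' j) fun w hw => by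
    simp only [smul_sub, Finset.sum_sub_distrib]
    rw [h w hw, sub_self]
  exact ⟨β, fun j => by rw [← hβ j]; abel⟩

theorem w1_congr {η η' : Fin n → H} (h : ∀ w ∈ kerF th, ∑ j, w j • η j = ∑ j, w j • η' j) :
    w1 (Top.wdg th) η = w1 (Top.wdg th) η' := by
  obtain ⟨β, hβ⟩ := fac_of_ker h
  funext I
  have h1 := w1_dec (Top.wdg th) (η := fun j => ∑ k, th k j • β k) (fun _ => rfl) I
  simp only [eW_wdg_self, Pi.zero_apply, zero_smul, Finset.sum_const_zero] at h1
  simp only [w1] at h1 ⊢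
  simp only [hβ, smul_add, Finset.sum_add_distrib, h1, add_zero]

theorem Wr_congr {η η' : Fin n → H} (h : ∀ w ∈ kerF th, ∑ j, w j • η j = ∑ j, w j • η' j) :
    Wr G (Top.wdg th) η = Wr G (Top.wdg th) η' := by
  obtain ⟨β, hβ⟩ := fac_of_ker h
  funext I
  rw [Wr_dec G _ (l := Sum.elim ep th) (β := Sum.elim η' β) (fun j => ?_),
    Wr_dec G _ (η := η') (l := Sum.elim ep fun _ : Fin q => 0) (β := Sum.elim η' β) (fun j => ?_)]
  · refine Finset.sum_congr rfl fun a _ => ?_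
    by_cases ha : ∃ i k, a i = Sum.inr k
    · obtain ⟨i, k, ha⟩ := ha
      rw [EW_wdg_of_eq (i := i) (k := k) (by simp [ha]),
        (EW n r).map_coord_zero i (by simp [ha]), Matrix.zero_mulVec]
    · congr 4
      funext i
      rcases hi : a i with b | k
      · rfl
      · exact absurd ⟨i, k, hi⟩ ha
  · simp [Fintype.sum_sum_type, Pi.single_apply]
  · simp [Fintype.sum_sum_type, Pi.single_apply, hβ j]

theorem w1_smul (τ : FI n → ℂ) (c : ℂ) (η : Fin n → H) : w1 τ (c • η) = c • w1 τ η := by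
  funext I
  simp [w1, Finset.smul_sum, smul_smul, mul_comm]

theorem w1_smul' (τ : FI n → ℂ) (c : ℂ) (η : Fin n → H) : w1 (c • τ) η = c • w1 τ η := by
  funext I
  simp [w1, Finset.smul_sum, smul_smul, Matrix.mulVec_smul]

theorem w1_zero (η : Fin n → H) : w1 (0 : FI n → ℂ) η = 0 := by
  funext I
  simp [w1]

theorem Wr_smul (τ : FI n → ℂ) (c : ℂ) (η : Fin n → H) :
    Wr G τ (c • η) = c ^ r • Wr G τ η := by
  funext I
  simp only [Wr, Pi.smul_apply, Finset.smul_sum]
  refine Finset.sum_congr rfl fun b _ => ?_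
  rw [G.map_smul_univ (fun _ => c), Finset.prod_const, Finset.card_univ, Fintype.card_fin,
    smul_comm]

theorem Wr_smul' (τ : FI n → ℂ) (c : ℂ) (η : Fin n → H) : Wr G (c • τ) η = c • Wr G τ η := by
  funext I
  simp [Wr, Finset.smul_sum, smul_smul, Matrix.mulVec_smul]

theorem Wr_zero (η : Fin n → H) : Wr G (0 : FI n → ℂ) η = 0 := by
  funext I
  simp [Wr]

theorem w1_gam (Q : Matrix (Fin n) (Fin n) ℂ) (τ : FI n → ℂ) (η : Fin n → H) :
    mv (Gam Q) (w1 τ η) = w1 (Gam Q *ᵥ τ) fun j => ∑ b, Q j b • η b := by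
  funext I
  rw [w1_dec (Gam Q *ᵥ τ) (l := fun b => Q *ᵥ ep b) (β := η) (fun j => by simp) I]
  unfold w1
  rw [mv_fsum]
  simp only [Matrix.mulVec_mulVec, Gam_eW]

theorem Wr_gam (Q : Matrix (Fin n) (Fin n) ℂ) (τ : FI n → ℂ) (η : Fin n → H) :
    mv (Gam Q) (Wr G τ η) = Wr G (Gam Q *ᵥ τ) fun j => ∑ b, Q j b • η b := by
  funext I
  rw [Wr_dec G (Gam Q *ᵥ τ) (l := fun b => Q *ᵥ ep b) (β := η) (fun j => by simp) I]
  unfold Wr
  rw [mv_fsum]
  simp only [Matrix.mulVec_mulVec, Gam_EW]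

theorem w1_map (U : H →ₗ[ℂ] H') (τ : FI n → ℂ) (η : Fin n → H) :
    (fun I => U (w1 τ η I)) = w1 τ fun j => U (η j) := by
  funext I
  simp [w1]

theorem Wr_map {G' : H' [⋀^Fin r]→ₗ[ℂ] E'} {U : H →ₗ[ℂ] H'} {V : E →ₗ[ℂ] E'}
    (h : ∀ v, G' (fun k => U (v k)) = V (G v)) (τ : FI n → ℂ) (η : Fin n → H) :
    (Wr G' τ fun j => U (η j)) = fun I => V (Wr G τ η I) := by
  funext I
  simp only [Wr, map_sum, map_smul]
  exact Finset.sum_congr rfl fun b _ => by rw [← h]





/-! ### division by `τ` -/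

theorem exists_div {m : ℕ} : ∀ {q : ℕ} {th : Fin q → Fin n → ℂ} {S : FI n → H},
    LinearIndependent ℂ th → Deg (m + q) S → (∀ k, mv (eW (th k)) S = 0) →
    ∃ X : FI n → H, Deg m X ∧ S = mv (EW n q th) X
  | 0, th, S, _, hd, _ => ⟨S, hd, by rw [EW_zero, mv_one]⟩
  | q + 1, th, S, hi, hd, hh => by
    obtain ⟨h1, h2⟩ := linearIndependent_finSucc.1 hi
    obtain ⟨w, hw1, hw2⟩ := exists_dual h2
    obtain ⟨X, hX, hS⟩ := exists_div (th := fun k => th k.succ) (S := mv (iW w) S) h1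
      (Deg.iW hd w) fun k => by
        have := mv_eW_iW (th k.succ) w S
        rwa [hh, mv_zero', zero_add, show ∑ j, th k.succ j * w j = 0 from hw2 k, zero_smul] at this
    refine ⟨X, hX, ?_⟩
    have := mv_eW_iW (th 0) w S
    rw [hh, mv_zero', zero_add, hw1, one_smul] at this
    rw [EW_succ, mv_mul, ← hS, this]


theorem Hor.exists_w1 (h : Hor th S) (hτ : Top.wdg th ≠ 0) :
    ∃ η : Fin n → H, S = w1 (Top.wdg th) η := by
  obtain ⟨X, hX, hS⟩ := exists_div (m := 1) (twdg_ne_zero_iff.1 hτ)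
    (by rw [add_comm]; exact h.deg) h.hor
  refine ⟨fun b => (-1 : ℂ) ^ q • X {b}, ?_⟩
  rw [hS]
  conv_lhs => rw [show X = fun I => ∑ b, (eW (ep b : Fin n → ℂ) *ᵥ vac n) I • X {b} from
    funext hX.one_eq]
  rw [mv_fsum]
  funext I
  refine Finset.sum_congr rfl fun b _ => ?_
  rw [Matrix.mulVec_mulVec, eW_EW_comm, Matrix.smul_mulVec, ← Matrix.mulVec_mulVec, ← wdg_eq,
    Pi.smul_apply, smul_smul, smul_eq_mul, mul_comm]


theorem iW_w1 {w : Fin n → ℂ} (hw : w ∈ kerF th) (η : Fin n → H) (I : FI n) :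
    mv (iW w) (w1 (Top.wdg th) η) I = Top.wdg th I • ∑ b, w b • η b := by
  unfold w1
  rw [mv_fsum]
  simp only [iW_eW_mulVec, iW_wdg_of_ker hw, Matrix.mulVec_zero, sub_zero, Finset.smul_sum]
  refine Finset.sum_congr rfl fun b _ => ?_
  simp [Pi.single_apply, smul_smul, mul_comm]

theorem eta_w1 (η : Fin n → H) (J : FI n) : ∀ w ∈ kerF th,
    ∑ j, w j • eta (w1 (Top.wdg th) η) J j = ∑ j, w j • (Top.wdg th J • η) j := by
  intro w hw
  rw [eta_sum, iW_w1 hw, Finset.smul_sum]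
  exact Finset.sum_congr rfl fun j _ => by rw [Pi.smul_apply, smul_comm]

theorem Th_w1 (η : Fin n → H) (J : FI n) :
    Th G th (w1 (Top.wdg th) η) J = Top.wdg th J ^ r • Wr G (Top.wdg th) η := by
  rw [Th, Wr_congr G (eta_w1 η J), Wr_smul]

theorem Sp_of_zero (hτ : Top.wdg th = 0) (S : FI n → H) : Sp G th S = 0 :=
  dif_neg (by simp [hτ])

theorem Sp_w1 (η : Fin n → H) : Sp G th (w1 (Top.wdg th) η) = Wr G (Top.wdg th) η := by
  by_cases h : ∃ J, Top.wdg th J ≠ 0
  · rw [Sp, dif_pos h, Th_w1, smul_smul, ← mul_pow, inv_mul_cancel₀ h.choose_spec, one_pow,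
      one_smul]
  · have h0 : Top.wdg th = 0 := by
      funext J
      by_contra hJ
      exact h ⟨J, hJ⟩
    rw [Sp_of_zero G h0, h0, Wr_zero]

/-- (0) Cramer's rule -/
theorem Hor.tau_smul (h : Hor th S) (J : FI n) :
    Top.wdg th J • S = w1 (Top.wdg th) (eta S J) := by
  by_cases hτ : Top.wdg th = 0
  · rw [hτ, w1_zero]; simp
  · obtain ⟨η, rfl⟩ := h.exists_w1 hτ
    rw [w1_congr (eta_w1 η J), w1_smul]

theorem Hor.eq_w1 (h : Hor th S) {J : FI n} (hJ : Top.wdg th J ≠ 0) :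
    S = w1 (Top.wdg th) ((Top.wdg th J)⁻¹ • eta S J) := by
  rw [w1_smul, ← h.tau_smul, smul_smul, inv_mul_cancel₀ hJ, one_smul]

/-- (1) -/
theorem Hor.Th_eq (h : Hor th S) (J : FI n) :
    Th G th S J = Top.wdg th J ^ r • Sp G th S := by
  by_cases hτ : Top.wdg th = 0
  · rw [Sp_of_zero G hτ, Th, hτ, Wr_zero, smul_zero]
  · obtain ⟨η, rfl⟩ := h.exists_w1 hτ
    rw [Th_w1, Sp_w1]

theorem Hor.Sp_eq (h : Hor th S) {J : FI n} (hJ : Top.wdg th J ≠ 0) :
    Sp G th S = (Top.wdg th J)⁻¹ ^ r • Th G th S J := by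
  rw [h.Th_eq, smul_smul, ← mul_pow, inv_mul_cancel₀ hJ, one_pow, one_smul]

/-! ### (2) naturality -/


theorem Hor.lin (h : Hor th S) (L : Matrix (Fin q) (Fin q) ℂ) :
    Hor (fun k => ∑ l, L k l • th l) S := by
  refine ⟨h.deg, fun k => ?_⟩
  rw [eW_sum_smul, mv_sum]
  exact Finset.sum_eq_zero fun l _ => by rw [mv_smul, h.hor, smul_zero]

theorem Hor.smul (h : Hor th S) (c : ℂ) : Hor th (c • S) :=
  ⟨h.deg.smul c, fun k => by rw [mv_smul', h.hor, smul_zero]⟩

theorem Hor.map (h : Hor th S) (U : H →ₗ[ℂ] H') : Hor th fun I => U (S I) :=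
  ⟨h.deg.map U, fun k => by rw [mv_map, h.hor]; funext I; simp⟩

theorem Hor.Sp_gam (h : Hor th S) (Q : Matrix (Fin n) (Fin n) ℂ) :
    Sp G (fun k => Q *ᵥ th k) (mv (Gam Q) S) = mv (Gam Q) (Sp G th S) := by
  by_cases hτ : Top.wdg th = 0
  · rw [Sp_of_zero G hτ, Sp_of_zero G (by rw [← Gam_wdg, hτ, Matrix.mulVec_zero]), mv_zero']
  · obtain ⟨η, rfl⟩ := h.exists_w1 hτ
    rw [Sp_w1, w1_gam, Wr_gam, Gam_wdg, Sp_w1]

theorem Hor.Sp_smul (h : Hor th S) (c : ℂ) : Sp G th (c • S) = c ^ r • Sp G th S := by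
  by_cases hτ : Top.wdg th = 0
  · rw [Sp_of_zero G hτ, Sp_of_zero G hτ, smul_zero]
  · obtain ⟨η, rfl⟩ := h.exists_w1 hτ
    rw [← w1_smul, Sp_w1, Sp_w1, Wr_smul]

/-- the equivariant form: `S ↦ det L • S` -/
theorem Hor.Sp_lin' (h : Hor th S) (L : Matrix (Fin q) (Fin q) ℂ) :
    Sp G (fun k => ∑ l, L k l • th l) (L.det • S) = L.det • Sp G th S := by
  by_cases hτ : Top.wdg th = 0
  · rw [Sp_of_zero G hτ, Sp_of_zero G (by rw [wdg_lin, hτ, smul_zero]), smul_zero]
  · obtain ⟨η, rfl⟩ := h.exists_w1 hτ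
    rw [← w1_smul', ← wdg_lin, Sp_w1, Sp_w1, wdg_lin, Wr_smul']

theorem Hor.Sp_lin (h : Hor th S) {L : Matrix (Fin q) (Fin q) ℂ} (hL : L.det ≠ 0) :
    Sp G (fun k => ∑ l, L k l • th l) S = (L.det * L.det⁻¹ ^ r) • Sp G th S := by
  have h1 := (h.smul L.det⁻¹).Sp_lin' G L
  rw [smul_smul, mul_inv_cancel₀ hL, one_smul, h.Sp_smul, smul_smul] at h1
  exact h1

theorem Hor.Sp_map (h : Hor th S) {G' : H' [⋀^Fin r]→ₗ[ℂ] E'} {U : H →ₗ[ℂ] H'} {V : E →ₗ[ℂ] E'}
    (hU : ∀ v, G' (fun k => U (v k)) = V (G v)) :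
    (Sp G' th fun I => U (S I)) = fun I => V (Sp G th S I) := by
  by_cases hτ : Top.wdg th = 0
  · rw [Sp_of_zero G hτ, Sp_of_zero G' hτ]; funext I; simp
  · obtain ⟨η, rfl⟩ := h.exists_w1 hτ
    rw [w1_map, Sp_w1, Sp_w1, Wr_map G hU]


/-! ### (3) rank one -/

theorem sum_fun_perm {A : Type*} [AddCommMonoid A] (f : (Fin r → Fin r) → A)
    (hf : ∀ a, ¬ Function.Injective a → f a = 0) :
    ∑ a, f a = ∑ σ : Equiv.Perm (Fin r), f σ := by
  classical
  calc ∑ a, f a = ∑ a : Fin r → Fin r with Function.Bijective a, f a :=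
        (Finset.sum_subset (Finset.filter_subset _ _) fun a _ ha => hf a fun hi => ha (by
          simpa using Finite.injective_iff_bijective.1 hi)).symm
    _ = ∑ σ : Equiv.Perm (Fin r), f σ :=
        Finset.sum_bij (fun p h => Equiv.ofBijective p (Finset.mem_filter.1 h).2)
          (fun _ _ => Finset.mem_univ _) (fun _ _ _ _ h => by injection h)
          (fun b _ => ⟨b, Finset.mem_filter.2 ⟨Finset.mem_univ _, b.bijective⟩,
            Equiv.coe_fn_injective rfl⟩) fun _ _ => rfl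

theorem Wr_basis (τ : FI n → ℂ) {η : Fin n → H} {l : Fin r → Fin n → ℂ} {β : Fin r → H}
    (h : ∀ j, η j = ∑ a, l a j • β a) (I : FI n) :
    Wr G τ η I = ((r.factorial : ℂ) * (EW n r l *ᵥ τ) I) • G β := by
  rw [Wr_dec G τ h, sum_fun_perm]
  · have : ∀ σ : Equiv.Perm (Fin r), (EW n r (fun k => l (σ k)) *ᵥ τ) I • G (fun k => β (σ k))
        = (EW n r l *ᵥ τ) I • G β := by
      intro σ
      have e1 := (EW n r).map_perm l σ
      have e2 := G.map_perm β σ
      rw [show (fun k => l (σ k)) = l ∘ σ from rfl, show (fun k => β (σ k)) = β ∘ σ from rfl,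
        e1, e2]
      rcases Int.units_eq_one_or (Equiv.Perm.sign σ) with h1 | h1 <;>
        simp [h1, Matrix.neg_mulVec]
    simp only [this, Finset.sum_const, Finset.card_univ, Fintype.card_perm, Fintype.card_fin]
    rw [mul_smul, Nat.cast_smul_eq_nsmul]
  · intro a ha
    rw [G.map_eq_zero_of_not_injective (fun k => β (a k))
      fun hi => ha (Function.Injective.of_comp (f := β) hi), smul_zero]

/-- (3), full version -/
theorem Hor.basis (h : Hor th S) (hτ : Top.wdg th ≠ 0) {β : Fin r → H}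
    (hβ : LinearIndependent ℂ β)
    (hs : Submodule.span ℂ (Set.range β) = Submodule.span ℂ (Set.range S)) :
    ∃ l : Fin r → Fin n → ℂ, Top.wdg (Fin.append l th) ≠ 0 ∧
      (∀ I, S I = ∑ k, (eW (l k) *ᵥ Top.wdg th) I • β k) ∧
      (∀ w ∈ kerF th, mv (iW w) S = 0 ↔ w ∈ kerF l) ∧
      ∀ I, Sp G th S I = ((r.factorial : ℂ) * Top.wdg (Fin.append l th) I) • G β := by
  obtain ⟨J, hJ⟩ := Function.ne_iff.1 hτ
  set η := (Top.wdg th J)⁻¹ • eta S J with hη
  have hS : S = w1 (Top.wdg th) η := h.eq_w1 hJ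
  have hmem : ∀ j, η j ∈ Submodule.span ℂ (Set.range β) := fun j => by
    rw [hs]
    exact Submodule.smul_mem _ _ (eta_mem (mem_span_self S) J j)
  choose c hc using fun j => (Submodule.mem_span_range_iff_exists_fun ℂ).1 (hmem j)
  have hdec : ∀ j, η j = ∑ a, (fun a j => c j a) a j • β a := fun j => (hc j).symm
  have hS' : ∀ I, S I = ∑ k, (eW (fun j => c j k) *ᵥ Top.wdg th) I • β k := fun I => by
    conv_lhs => rw [hS]
    exact w1_dec _ hdec I
  refine ⟨fun a j => c j a, ?_, hS', fun w hw => ?_, fun I => ?_⟩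
  · rw [twdg_ne_zero_iff, Fintype.linearIndependent_iff]
    intro g hg
    rw [Fin.sum_univ_add] at hg
    simp only [Fin.append_left, Fin.append_right] at hg
    have hx : ∀ k, g (Fin.castAdd q k) = 0 := by
      have h0 : eW (∑ k, g (Fin.castAdd q k) • fun j => c j k) *ᵥ Top.wdg th = 0 := by
        apply eW_wdg_of_mem
        rw [eq_neg_of_add_eq_zero_left hg]
        exact Submodule.neg_mem _ (Submodule.sum_mem _ fun k _ =>
          Submodule.smul_mem _ _ (Submodule.subset_span ⟨k, rfl⟩))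
      have h1 : eW (∑ k, g (Fin.castAdd q k) • fun j => c j k)
          = ∑ k, g (Fin.castAdd q k) • eW fun j => c j k := eW_sum_smul _ _ _
      obtain ⟨ξ, hξ⟩ := LinearMap.exists_extend
        ((Module.Basis.span hβ).constr ℂ fun k => g (Fin.castAdd q k))
      have hξβ : ∀ k, ξ (β k) = g (Fin.castAdd q k) := fun k => by
        have := LinearMap.congr_fun hξ (Module.Basis.span hβ k)
        rwa [LinearMap.comp_apply, Submodule.subtype_apply, Module.Basis.constr_basis,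
          Module.Basis.span_apply] at this
      have hξS : ∀ I, ξ (S I) = 0 := fun I => by
        have h2 := congrFun h0 I
        rw [h1, Matrix.sum_mulVec, Finset.sum_apply] at h2
        rw [hS', map_sum, ← show _ = (0 : ℂ) from h2]
        refine Finset.sum_congr rfl fun k _ => ?_
        rw [map_smul, hξβ, Matrix.smul_mulVec, Pi.smul_apply, smul_eq_mul, smul_eq_mul, mul_comm]
      intro k
      have h3 : Submodule.span ℂ (Set.range S) ≤ LinearMap.ker ξ :=
        Submodule.span_le.2 (by rintro _ ⟨I, rfl⟩; exact hξS I)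
      rw [← hξβ]
      exact h3 (hs ▸ Submodule.subset_span ⟨k, rfl⟩)
    simp only [hx, zero_smul, Finset.sum_const_zero, zero_add] at hg
    have hy := Fintype.linearIndependent_iff.1 (twdg_ne_zero_iff.1 hτ) _ hg
    intro i
    induction i using Fin.addCases with
    | left i => exact hx i
    | right i => exact hy i
  · have e1 : ∑ b, w b • η b = ∑ k, (∑ j, c j k * w j) • β k := by
      simp only [← hc, Finset.smul_sum, Finset.sum_smul, smul_smul]
      rw [Finset.sum_comm]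
      exact Finset.sum_congr rfl fun k _ => Finset.sum_congr rfl fun j _ => by rw [mul_comm]
    have e2 : ∀ I, mv (iW w) S I = Top.wdg th I • ∑ k, (∑ j, c j k * w j) • β k := fun I => by
      rw [← e1, ← iW_w1 hw, ← hS]
    constructor
    · intro h0
      have := e2 J
      rw [h0] at this
      exact Fintype.linearIndependent_iff.1 hβ _ ((smul_eq_zero.1 this.symm).resolve_left hJ)
    · intro h0
      funext I
      rw [e2]
      simp [mem_kerF.1 h0]
  · conv_lhs => rw [hS]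
    rw [Sp_w1, Wr_basis G _ hdec, wdg_append]

/-- (3) -/
theorem Hor.rank_one (h : Hor th S) (hτ : Top.wdg th ≠ 0) {β : Fin r → H}
    (hβ : LinearIndependent ℂ β)
    (hs : Submodule.span ℂ (Set.range β) = Submodule.span ℂ (Set.range S)) :
    ∃ c : FI n → ℂ, c ≠ 0 ∧ ∀ I, Sp G th S I = c I • G β := by
  obtain ⟨l, h1, -, -, h2⟩ := h.basis G hτ hβ hs
  refine ⟨fun I => (r.factorial : ℂ) * Top.wdg (Fin.append l th) I, fun h0 => h1 ?_, h2⟩
  funext I
  exact (mul_eq_zero.1 (congrFun h0 I)).resolve_left (Nat.cast_ne_zero.2 r.factorial_ne_zero)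

/-- a basis of the span of the coefficients -/
theorem exists_basis {ι : Type*} [Finite ι] {S : ι → H}
    (hr : Module.finrank ℂ (Submodule.span ℂ (Set.range S)) = r) :
    ∃ β : Fin r → H, LinearIndependent ℂ β ∧
      Submodule.span ℂ (Set.range β) = Submodule.span ℂ (Set.range S) := by
  have := FiniteDimensional.span_of_finite ℂ (Set.finite_range S)
  let b := Module.finBasisOfFinrankEq ℂ _ hr
  refine ⟨fun k => (b k : H), b.linearIndependent.map' (Submodule.subtype _)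
    (Submodule.ker_subtype _), ?_⟩
  have h1 := congrArg (Submodule.map (Submodule.span ℂ (Set.range S)).subtype) b.span_eq
  rw [Submodule.map_span, Submodule.map_top, Submodule.range_subtype, ← Set.range_comp] at h1
  exact h1

theorem Th_eq_zero (th : Fin q → Fin n → ℂ)
    (hr : Module.finrank ℂ (Submodule.span ℂ (Set.range S)) < r) (J : FI n) :
    Th G th S J = 0 := by
  funext I
  refine Finset.sum_eq_zero fun b _ => ?_
  rw [G.map_linearDependent _ fun hi => ?_, smul_zero]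
  have := FiniteDimensional.span_of_finite ℂ (Set.finite_range S)
  have h1 : LinearIndependent ℂ fun k => (⟨eta S J (b k),
      eta_mem (mem_span_self S) J _⟩ :
        Submodule.span ℂ (Set.range S)) :=
    LinearIndependent.of_comp (Submodule.subtype _) hi
  have := h1.fintype_card_le_finrank
  rw [Fintype.card_fin] at this
  omega


/-! ### (4) parallelism, (6) the kernel -/

/-- (4) -/
theorem Hor.par (h : Hor th S) {p : ℕ} (hp : p = q + r) {π : Fin p → Fin n → ℂ}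
    (hk : ∀ w ∈ kerF π, w ∈ kerF th ∧ mv (iW w) S = 0) :
    ∃ Φ : E, ∀ I, Sp G th S I = Top.wdg π I • Φ := by
  obtain rfl : p = r + q := by omega
  by_cases hτ : Top.wdg th = 0
  · exact ⟨0, fun I => by rw [Sp_of_zero G hτ]; simp⟩
  obtain ⟨J, hJ⟩ := Function.ne_iff.1 hτ
  obtain ⟨β, hβ⟩ := exists_fac (π := π) (η := (Top.wdg th J)⁻¹ • eta S J) fun w hw => by
    have := eta_sum S J w
    rw [(hk w hw).2] at this
    simp only [Pi.smul_apply, smul_comm (w _), ← Finset.smul_sum, this, Pi.zero_apply, smul_zero]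
  have hpar : ∀ a : Fin r → Fin (r + q), ∃ c : ℂ,
      EW n r (fun k => π (a k)) *ᵥ Top.wdg th = c • Top.wdg π := fun a => by
    rw [← wdg_append]
    refine wdg_par fun k => ?_
    induction k using Fin.addCases with
    | left k => rw [Fin.append_left]; exact Submodule.subset_span ⟨_, rfl⟩
    | right k => rw [Fin.append_right]; exact mem_span_of_ker fun w hw => (hk w hw).1 k
  choose c hc using hpar
  refine ⟨∑ a, c a • G fun k => β (a k), fun I => ?_⟩
  conv_lhs => rw [h.eq_w1 hJ]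
  rw [Sp_w1, Wr_dec G _ hβ, Finset.smul_sum]
  refine Finset.sum_congr rfl fun a _ => ?_
  rw [hc, Pi.smul_apply, smul_smul, smul_eq_mul, mul_comm]

/-- the common kernel of `th` and `S` -/
def kerS (th : Fin q → Fin n → ℂ) (S : FI n → H) : Submodule ℂ (Fin n → ℂ) where
  carrier := {w | w ∈ kerF th ∧ mv (iW w) S = 0}
  add_mem' {a b} ha hb := ⟨add_mem ha.1 hb.1, by rw [iW_add, mv_add, ha.2, hb.2, add_zero]⟩
  zero_mem' := ⟨zero_mem _, by simp⟩
  smul_mem' c a ha := ⟨Submodule.smul_mem _ c ha.1, by rw [iW_smul, mv_smul, ha.2, smul_zero]⟩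

theorem mem_kerS {w : Fin n → ℂ} : w ∈ kerS th S ↔ w ∈ kerF th ∧ mv (iW w) S = 0 := Iff.rfl

theorem mem_kerF_append {l : Fin r → Fin n → ℂ} {w : Fin n → ℂ} :
    w ∈ kerF (Fin.append l th) ↔ w ∈ kerF l ∧ w ∈ kerF th := by
  simp only [mem_kerF]
  constructor
  · intro h
    exact ⟨fun k => by simpa using h (Fin.castAdd q k), fun k => by simpa using h (Fin.natAdd r k)⟩
  · rintro ⟨h1, h2⟩ k
    induction k using Fin.addCases with
    | left k => simpa using h1 k
    | right k => simpa using h2 k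

/-- the structure of `Sp` at a point of rank `r`: a decomposable form with kernel `kerS` -/
theorem Hor.dec (h : Hor th S) (hτ : Top.wdg th ≠ 0) {β : Fin r → H}
    (hβ : LinearIndependent ℂ β)
    (hs : Submodule.span ℂ (Set.range β) = Submodule.span ℂ (Set.range S)) :
    ∃ μ : Fin (r + q) → Fin n → ℂ, Top.wdg μ ≠ 0 ∧ kerS th S = kerF μ ∧
      ∀ I, Sp G th S I = ((r.factorial : ℂ) * Top.wdg μ I) • G β := by
  obtain ⟨l, h1, -, h2, h3⟩ := h.basis G hτ hβ hs
  refine ⟨Fin.append l th, h1, ?_, h3⟩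
  ext w
  rw [mem_kerS, mem_kerF_append]
  constructor
  · exact fun hw => ⟨(h2 w hw.1).1 hw.2, hw.1⟩
  · exact fun hw => ⟨hw.2, (h2 w hw.2).2 hw.1⟩


end alg

/-! ### (5) norms and differentiability -/

section ana

variable {H E : Type*} [NormedAddCommGroup H] [NormedSpace ℂ H] [NormedAddCommGroup E]
  [NormedSpace ℂ E] (G : H [⋀^Fin r]→L[ℂ] E)

theorem norm_mv_le (B : Matrix (FI n) (FI n) ℂ) {S : FI n → H} {s : ℝ} (hS : ∀ I, ‖S I‖ ≤ s)
    (I : FI n) : ‖mv B S I‖ ≤ (∑ J, ‖B I J‖) * s := by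
  rw [mv_apply, Finset.sum_mul]
  refine (norm_sum_le _ _).trans (Finset.sum_le_sum fun J _ => ?_)
  rw [norm_smul]
  exact mul_le_mul_of_nonneg_left (hS J) (norm_nonneg _)

theorem exists_norm_Wr : ∃ C : ℝ, 0 ≤ C ∧ ∀ (τ : FI n → ℂ) (S : FI n → H) (t s : ℝ),
    (∀ I, ‖τ I‖ ≤ t) → (∀ I, ‖S I‖ ≤ s) → ∀ J I,
      ‖Wr G.toAlternatingMap τ (eta S J) I‖ ≤ C * t * s ^ r := by
  set M1 : ℝ := ∑ I, ∑ b : Fin r → Fin n, ∑ J, ‖EW n r (fun k => ep (b k)) I J‖
  set M2 : ℝ := ∑ b, ∑ I, ∑ J, ‖(iW (ep b) : Matrix (FI n) (FI n) ℂ) I J‖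
  have hM2 : 0 ≤ M2 := by positivity
  refine ⟨M1 * ‖G‖ * M2 ^ r, by positivity, fun τ S t s hτ hS J I => ?_⟩
  have ht : 0 ≤ t := (norm_nonneg _).trans (hτ ∅)
  have hs : 0 ≤ s := (norm_nonneg _).trans (hS ∅)
  have h1 : ∀ b, ‖eta S J b‖ ≤ M2 * s := fun b => by
    refine (norm_mv_le _ hS J).trans (mul_le_mul_of_nonneg_right ?_ hs)
    refine le_trans ?_ (Finset.single_le_sum (f := fun b => ∑ I, ∑ J,
      ‖(iW (ep b) : Matrix (FI n) (FI n) ℂ) I J‖) (fun _ _ => by positivity) (Finset.mem_univ b))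
    exact Finset.single_le_sum (f := fun I => ∑ J,
      ‖(iW (ep b) : Matrix (FI n) (FI n) ℂ) I J‖) (fun _ _ => by positivity) (Finset.mem_univ J)
  have h2 : ∀ b : Fin r → Fin n, ‖G fun k => eta S J (b k)‖ ≤ ‖G‖ * (M2 * s) ^ r := fun b => by
    refine (G.le_opNorm _).trans (mul_le_mul_of_nonneg_left ?_ (norm_nonneg _))
    refine (Finset.prod_le_prod (fun _ _ => norm_nonneg _) fun k _ => h1 (b k)).trans ?_
    rw [Finset.prod_const, Finset.card_univ, Fintype.card_fin]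
  calc ‖Wr G.toAlternatingMap τ (eta S J) I‖
      ≤ ∑ b : Fin r → Fin n, ((∑ J, ‖EW n r (fun k => ep (b k)) I J‖) * t) *
          (‖G‖ * (M2 * s) ^ r) := by
        refine (norm_sum_le _ _).trans (Finset.sum_le_sum fun b _ => ?_)
        rw [norm_smul]
        exact mul_le_mul (norm_mv_le _ hτ I) (h2 b) (norm_nonneg _) (by positivity)
    _ = (∑ b : Fin r → Fin n, ∑ J, ‖EW n r (fun k => ep (b k)) I J‖) *
          (t * (‖G‖ * (M2 * s) ^ r)) := by
        simp only [mul_assoc]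
        exact (Finset.sum_mul _ _ _).symm
    _ ≤ M1 * (t * (‖G‖ * (M2 * s) ^ r)) := by
        refine mul_le_mul_of_nonneg_right ?_ (by positivity)
        exact Finset.single_le_sum (f := fun I => ∑ b : Fin r → Fin n, ∑ J,
          ‖EW n r (fun k => ep (b k)) I J‖) (fun _ _ => by positivity) (Finset.mem_univ I)
    _ = _ := by ring

/-- (5) the bound for `Th`, and for `Sp` when `S = O(τ_J)` -/
theorem exists_norm_Sp (q : ℕ) : ∃ C : ℝ, 0 ≤ C ∧ ∀ (th : Fin q → Fin n → ℂ) (S : FI n → H)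
    (t s : ℝ), (∀ I, ‖Top.wdg th I‖ ≤ t) →
      ((∀ I, ‖S I‖ ≤ s) → ∀ J I, ‖Th G.toAlternatingMap th S J I‖ ≤ C * t * s ^ r) ∧
      (Hor th S → ∀ J, Top.wdg th J ≠ 0 → (∀ I, ‖S I‖ ≤ s * ‖Top.wdg th J‖) →
        ∀ I, ‖Sp G.toAlternatingMap th S I‖ ≤ C * t * s ^ r) := by
  obtain ⟨C, hC, h⟩ := exists_norm_Wr (n := n) G
  refine ⟨C, hC, fun th S t s ht => ⟨fun hS J I => h _ S t s ht hS J I, fun hh J hJ hS I => ?_⟩⟩
  have h1 := h _ S t _ ht hS J I
  have h2 : 0 < ‖Top.wdg th J‖ ^ r := pow_pos (norm_pos_iff.2 hJ) r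
  change ‖Th G.toAlternatingMap th S J I‖ ≤ _ at h1
  rw [hh.Th_eq, Pi.smul_apply, norm_smul, norm_pow, mul_pow, ← mul_assoc, mul_comm] at h1
  exact le_of_mul_le_mul_right h1 h2

variable {X : Type*} [NormedAddCommGroup X] [NormedSpace ℂ X] {x : X}

theorem differentiableAt_mv {B : X → Matrix (FI n) (FI n) ℂ} {S : X → FI n → H}
    (hB : ∀ I J, DifferentiableAt ℂ (fun y => B y I J) x)
    (hS : ∀ I, DifferentiableAt ℂ (fun y => S y I) x) (I : FI n) :
    DifferentiableAt ℂ (fun y => mv (B y) (S y) I) x :=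
  DifferentiableAt.fun_sum fun J _ => (hB I J).smul (hS J)

theorem differentiableAt_twdg : ∀ {m : ℕ} {v : X → Fin m → Fin n → ℂ},
    (∀ k j, DifferentiableAt ℂ (fun y => v y k j) x) →
      ∀ I, DifferentiableAt ℂ (fun y => Top.wdg (v y) I) x
  | 0, v, _, I => by simp only [wdg_nil]; exact differentiableAt_const _
  | m + 1, v, h, I => by
    simp only [wdg_succ (v _), eW_mulVec_apply]
    exact DifferentiableAt.fun_sum fun j _ => ((differentiableAt_const _).mul (h 0 j)).mul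
      (differentiableAt_twdg (v := fun y k => v y k.succ) (fun k j => h k.succ j) _)

theorem differentiableAt_Wr {τ : X → FI n → ℂ} {η : X → Fin n → H}
    (hτ : ∀ I, DifferentiableAt ℂ (fun y => τ y I) x)
    (hη : ∀ b, DifferentiableAt ℂ (fun y => η y b) x) (I : FI n) :
    DifferentiableAt ℂ (fun y => Wr G.toAlternatingMap (τ y) (η y) I) x := by
  refine DifferentiableAt.fun_sum fun b _ => DifferentiableAt.smul
    (differentiableAt_mv (B := fun _ => EW n r fun k => ep (b k))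
      (fun _ _ => differentiableAt_const _) hτ I) ?_
  exact (G.toContinuousMultilinearMap.hasFDerivAt _).differentiableAt.comp x
    (differentiableAt_pi.2 fun k => hη (b k))

theorem differentiableAt_Th {th : X → Fin q → Fin n → ℂ} {S : X → FI n → H}
    (hth : ∀ k j, DifferentiableAt ℂ (fun y => th y k j) x)
    (hS : ∀ I, DifferentiableAt ℂ (fun y => S y I) x) (J I : FI n) :
    DifferentiableAt ℂ (fun y => Th G.toAlternatingMap (th y) (S y) J I) x :=
  differentiableAt_Wr G (differentiableAt_twdg hth) (fun b =>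
    differentiableAt_mv (B := fun _ => iW (ep b)) (fun _ _ => differentiableAt_const _) hS J) I

theorem differentiableAt_Sp {th : X → Fin q → Fin n → ℂ} {S : X → FI n → H}
    (hth : ∀ k j, DifferentiableAt ℂ (fun y => th y k j) x)
    (hS : ∀ I, DifferentiableAt ℂ (fun y => S y I) x) (hh : ∀ᶠ y in 𝓝 x, Hor (th y) (S y))
    (hτ : Top.wdg (th x) ≠ 0) (I : FI n) :
    DifferentiableAt ℂ (fun y => Sp G.toAlternatingMap (th y) (S y) I) x := by
  obtain ⟨J, hJ⟩ := Function.ne_iff.1 hτ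
  have h1 := differentiableAt_twdg hth J
  have h2 : DifferentiableAt ℂ (fun y => (Top.wdg (th y) J)⁻¹ ^ r •
      Th G.toAlternatingMap (th y) (S y) J I) x :=
    ((h1.inv hJ).pow r).smul (differentiableAt_Th G hth hS J I)
  refine h2.congr_of_eventuallyEq ?_
  filter_upwards [hh, h1.continuousAt.eventually_ne hJ] with y hy hy'
  rw [hy.Sp_eq _ hy']
  rfl

end ana

end

end Crest.Agent.X261.Plk
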