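import Crest.Agent.R281.Kd5_22
import Crest.Agent.R281.Thn5_280
import Crest.Agent.X261.Gauss.NP_Mg
import Crest.Agent.X261.Gauss.Defs
import Crest.Agent.X261.Bog.Loc

-- ▼ part X261/Gauss/Flat
section

/-!
# Row 261, GAUSS (helper56), file `Flat`: removable singularities in `ℂ^n`

* `circ`      : discs whose boundary circles stay in a compact set avoiding a hypersurface;
* `unif_bdd`, `bdd_cop` : a function holomorphic off the common zeros of a coprime family is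
                   bounded (Hartogs, with discs);
* `riemann_L2`   : `L²` Riemann extension across an analytic hypersurface in any dimension.
-/

set_option autoImplicit false
set_option linter.unusedSectionVars false
set_option linter.dupNamespace false

open Set Filter Topology Complex Metric MeasureTheory Module
open scoped ENNReal

namespace Crest.Agent.X261.Gauss

open Crest.Agent.R281.Kd_22 (CopF star_dir)

noncomputable section

variable {E : Type} [NormedAddCommGroup E] [NormedSpace ℂ E] [FiniteDimensional ℂ E]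

theorem exists_dir {D : E → ℂ} {p : E} (hD : AnalyticAt ℂ D p) (h0 : ¬ ∀ᶠ z in 𝓝 p, D z = 0) :
    ∃ v : E, ¬ ∀ᶠ t : ℂ in 𝓝 0, D (p + t • v) = 0 := by
  obtain ⟨ρ, hρ, hA⟩ := Metric.eventually_nhds_iff_ball.1 hD.eventually_analyticAt
  have h1 : ∃ᶠ z in 𝓝 p, D z ≠ 0 := by rwa [Filter.not_eventually] at h0
  obtain ⟨z, hz, hzb⟩ := (h1.and_eventually (ball_mem_nhds p hρ)).exists
  refine ⟨z - p, fun hcon => hz ?_⟩
  set v := z - p
  have hconv : Convex ℝ ((fun s : ℂ => p + s • v) ⁻¹' ball p ρ) := by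
    have h2 : (fun s : ℂ => p + s • v) ⁻¹' ball p ρ =
        (((LinearMap.toSpanSingleton ℂ E v).restrictScalars ℝ : ℂ →ₗ[ℝ] E)) ⁻¹' ball 0 ρ := by
      ext s
      simp [mem_ball, dist_eq_norm]
    rw [h2]
    exact (convex_ball (0 : E) ρ).linear_preimage _
  have han : AnalyticOnNhd ℂ (fun s : ℂ => D (p + s • v))
      ((fun s : ℂ => p + s • v) ⁻¹' ball p ρ) := fun s hs =>
    AnalyticAt.comp (g := D) (f := fun s : ℂ => p + s • v) (hA _ hs)
      (analyticAt_const.add (analyticAt_id.smul analyticAt_const))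
  have h00 : (0 : ℂ) ∈ (fun s : ℂ => p + s • v) ⁻¹' ball p ρ := by
    simpa using hρ
  have h1' : (1 : ℂ) ∈ (fun s : ℂ => p + s • v) ⁻¹' ball p ρ := by
    simpa [v] using hzb
  have := han.eqOn_zero_of_preconnected_of_eventuallyEq_zero hconv.isPreconnected h00 hcon h1'
  simpa [v] using this

/-- discs with boundary in a fixed compact set off a hypersurface -/
theorem circ {D : E → ℂ} {p : E} (hD : AnalyticAt ℂ D p) {v₁ : E}
    (hv : ¬ ∀ᶠ t : ℂ in 𝓝 0, D (p + t • v₁) = 0) {O : Set E} (hO : O ∈ 𝓝 p) :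
    ∃ ρ : ℝ, 0 < ρ ∧ ∃ N ∈ 𝓝 p, ∃ C : Set E, IsCompact C ∧ C ⊆ O ∧ (∀ z ∈ C, D z ≠ 0) ∧
      ∀ z ∈ N, (∀ t : ℂ, ‖t‖ ≤ ρ → z + t • v₁ ∈ O) ∧ ∀ t : ℂ, ‖t‖ = ρ → z + t • v₁ ∈ C := by
  have : ProperSpace E := FiniteDimensional.proper ℂ E
  obtain ⟨O', hO'1, hO'o, hpO'⟩ := _root_.eventually_nhds_iff.1
    (hD.eventually_analyticAt.and (hO : ∀ᶠ z in 𝓝 p, z ∈ O))
  have hl : Continuous fun t : ℂ => p + t • v₁ := by fun_prop
  have hg : AnalyticAt ℂ (fun t : ℂ => D (p + t • v₁)) 0 :=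
    AnalyticAt.comp (g := D) (f := fun s : ℂ => p + s • v₁) (by simpa using hD)
      (analyticAt_const.add (analyticAt_id.smul analyticAt_const))
  have h1 := hg.eventually_eq_zero_or_eventually_ne_zero.resolve_left hv
  have h2 : ∀ᶠ t : ℂ in 𝓝 0, p + t • v₁ ∈ O' :=
    hl.continuousAt.preimage_mem_nhds (hO'o.mem_nhds (by simpa using hpO'))
  obtain ⟨ε, hε, hb⟩ := Metric.eventually_nhds_iff_ball.1
    ((eventually_nhdsWithin_iff.1 h1).and h2)
  have hρ : 0 < ε / 2 := half_pos hε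
  have hU : IsOpen (O' ∩ D ⁻¹' {0}ᶜ) :=
    ContinuousOn.isOpen_inter_preimage (fun z hz => (hO'1 z hz).1.continuousAt.continuousWithinAt)
      hO'o isOpen_compl_singleton
  have hK0 : IsCompact ((fun t : ℂ => p + t • v₁) '' closedBall 0 (ε / 2)) :=
    (isCompact_closedBall _ _).image hl
  have hK1 : IsCompact ((fun t : ℂ => p + t • v₁) '' sphere 0 (ε / 2)) :=
    (isCompact_sphere _ _).image hl
  obtain ⟨δ0, hδ0, h30⟩ := hK0.exists_cthickening_subset_open hO'o (by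
    rintro _ ⟨t, ht, rfl⟩
    exact (hb t (closedBall_subset_ball (half_lt_self hε) ht)).2)
  obtain ⟨δ1, hδ1, h31⟩ := hK1.exists_cthickening_subset_open hU (by
    rintro _ ⟨t, ht, rfl⟩
    have ht' := hb t (closedBall_subset_ball (half_lt_self hε) (sphere_subset_closedBall ht))
    refine ⟨ht'.2, ht'.1 ?_⟩
    rintro rfl
    simp at ht
    exact hρ.ne ht)
  refine ⟨ε / 2, hρ, ball p (min δ0 δ1), ball_mem_nhds _ (lt_min hδ0 hδ1), _, hK1.cthickening,
    fun z hz => (hO'1 z (h31 hz).1).2, fun z hz => (h31 hz).2, fun z hz => ⟨fun t ht => ?_,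
      fun t ht => ?_⟩⟩
  · refine (hO'1 _ (h30 (mem_cthickening_of_dist_le _ (p + t • v₁) _ _
      ⟨t, mem_closedBall_zero_iff.2 ht, rfl⟩ ?_))).2
    rw [dist_add_right]
    exact (mem_ball.1 hz).le.trans (min_le_left _ _)
  · refine mem_cthickening_of_dist_le _ (p + t • v₁) _ _ ⟨t, mem_sphere_zero_iff_norm.2 ht, rfl⟩ ?_
    rw [dist_add_right]
    exact (mem_ball.1 hz).le.trans (min_le_right _ _)

/-- maximum principle on a linear disc -/
theorem le_of_disc {W : Type*} [NormedAddCommGroup W] [NormedSpace ℂ W] {g : E → W} {z v : E}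
    {ρ M : ℝ} (hρ : 0 < ρ) (hg : ∀ t : ℂ, ‖t‖ ≤ ρ → DifferentiableAt ℂ g (z + t • v))
    (hM : ∀ t : ℂ, ‖t‖ = ρ → ‖g (z + t • v)‖ ≤ M) : ‖g z‖ ≤ M := by
  have hd : DifferentiableOn ℂ (fun t : ℂ => g (z + t • v)) (closure (ball 0 ρ)) := by
    rw [closure_ball _ hρ.ne']
    intro t ht
    exact ((hg t (mem_closedBall_zero_iff.1 ht)).comp t (by fun_prop)).differentiableWithinAt
  have := Complex.norm_le_of_forall_mem_frontier_norm_le isBounded_ball hd.diffContOnCl (C := M)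
    (fun t ht => by
      rw [frontier_ball _ hρ.ne'] at ht
      exact hM t (mem_sphere_zero_iff_norm.1 ht)) (subset_closure (mem_ball_self hρ))
  simpa using this


/-- **Hartogs**: a function holomorphic off the common zeros of a coprime family is locally
bounded -/
theorem bdd_cop {κ : Type} [Fintype κ] {f : κ → E → ℂ} {p : E} (hf : ∀ j, AnalyticAt ℂ (f j) p)
    (hcop : CopF f p) {O : Set E} (hO : O ∈ 𝓝 p) {g : E → ℂ}
    (hg : ∀ z ∈ O, (∃ j, f j z ≠ 0) → DifferentiableAt ℂ g z) :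
    ∃ N ∈ 𝓝 p, ∃ M : ℝ, ∀ z ∈ N, (∃ j, f j z ≠ 0) → ‖g z‖ ≤ M := by
  have : ProperSpace E := FiniteDimensional.proper ℂ E
  borelize E
  obtain ⟨K⟩ : Nonempty (TopologicalSpace.PositiveCompacts E) := inferInstance
  let μ : Measure E := Measure.addHaarMeasure K
  by_cases hp : ∃ j, f j p ≠ 0
  · have h1 := (hg p (mem_of_mem_nhds hO) hp).continuousAt.norm
    exact ⟨_, h1.eventually (gt_mem_nhds (lt_add_one ‖g p‖)), ‖g p‖ + 1, fun z hz _ => le_of_lt hz⟩
  push Not at hp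
  obtain ⟨j₀, hj₀⟩ : ∃ j, ¬ ∀ᶠ z in 𝓝 p, f j z = 0 := by
    by_contra hcon
    push Not at hcon
    refine hcop (fun _ => 0) analyticAt_const (fun j => ⟨fun _ => 0, analyticAt_const, ?_⟩) rfl
    filter_upwards [hcon j] with z hz
    rw [hz, mul_zero]
  obtain ⟨v, hv⟩ := exists_dir (hf j₀) hj₀
  have hv0 : v ≠ 0 := by
    rintro rfl
    exact hv (Eventually.of_forall fun t => by simpa using hp j₀)
  obtain ⟨r, hr, hae⟩ := star_dir μ hf hcop hv0 hv
  obtain ⟨ρ, hρ, N, hN, C, hC, hCO, hCD, h⟩ := circ (hf j₀) hv (inter_mem hO (ball_mem_nhds p hr))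
  obtain ⟨M, hM⟩ := hC.bddAbove_image (f := fun z => ‖g z‖) fun z hz =>
    (hg z (hCO hz).1 ⟨j₀, hCD z hz⟩).continuousAt.norm.continuousWithinAt
  refine ⟨interior N ∩ O, inter_mem (interior_mem_nhds.2 hN) hO, M, fun z hz hz' => ?_⟩
  have hc := (hg z hz.2 hz').continuousAt.norm
  refine le_of_tendsto_of_frequently hc ?_
  have hd := Measure.dense_of_ae hae
  have h1 : ∃ᶠ w in 𝓝 z, w ∈ ball p r → ∀ c : ℂ, w + c • v ∈ ball p r → ∃ j, f j (w + c • v) ≠ 0 :=
    mem_closure_iff_frequently.1 (hd z)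
  refine (h1.and_eventually (isOpen_interior.mem_nhds hz.1)).mono fun w hw => ?_
  have hwN := h w (interior_subset hw.2)
  have hw0 : w ∈ ball p r := by simpa using (hwN.1 0 (by simpa using hρ.le)).2
  exact le_of_disc hρ (fun t ht => hg _ (hwN.1 t ht).1 (hw.1 hw0 t (hwN.1 t ht).2))
    fun t ht => hM ⟨_, hwN.2 t ht, rfl⟩

/-- the `L²` Riemann extension theorem -/
theorem riemann_L2 [MeasurableSpace E] [BorelSpace E] (μ : Measure E) [μ.IsAddHaarMeasure]
    {f D : E → ℂ} {U : Set E} (hU : IsOpen U) (hD : AnalyticOnNhd ℂ D U)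
    (hne : ∀ a ∈ U, ¬ ∀ᶠ z in 𝓝 a, D z = 0) (hf : DifferentiableOn ℂ f (U ∩ {z | D z ≠ 0}))
    (hL : ∫⁻ z in U ∩ {z | D z ≠ 0}, ‖f z‖ₑ ^ 2 ∂μ < ⊤) :
    ∃ g : E → ℂ, DifferentiableOn ℂ g U ∧ ∀ z ∈ U, D z ≠ 0 → g z = f z := by
  set n := finrank ℂ E with hn
  let e : E ≃L[ℂ] (Fin n → ℂ) := ContinuousLinearEquiv.ofFinrankEq (by simp [hn])
  have hUo : IsOpen (e.symm ⁻¹' U) := hU.preimage e.symm.continuous
  let em : E ≃ᵐ (Fin n → ℂ) := e.toHomeomorph.toMeasurableEquiv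
  have hH : (μ.map e).IsAddHaarMeasure := e.isAddHaarMeasure_map μ
  have hμ := Measure.isAddLeftInvariant_eq_smul (volume : Measure (Fin n → ℂ)) (μ.map e)
  obtain ⟨g, hg1, hg2⟩ := Crest.Agent.R271.RExt747.riemann_ext (n := n) (f := f ∘ e.symm)
    (D := D ∘ e.symm) hUo (fun z hz => AnalyticAt.comp (g := D) (f := e.symm) (hD _ hz)
      ((e.symm : (Fin n → ℂ) →L[ℂ] E).analyticAt z)) (by
      intro a ha hcon
      refine hne _ ha ?_
      have h1 : Tendsto e (𝓝 (e.symm a)) (𝓝 a) := by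
        have := e.continuous.tendsto (e.symm a)
        rwa [e.apply_symm_apply] at this
      filter_upwards [h1.eventually hcon] with z hz
      simpa using hz)
      (DifferentiableOn.comp (t := U ∩ {z | D z ≠ 0}) hf e.symm.differentiable.differentiableOn
        fun z hz => hz) (by
      intro a ha
      refine ⟨_, hUo.mem_nhds ha, ?_⟩
      rw [hμ, Measure.restrict_smul, lintegral_smul_measure]
      refine ENNReal.mul_lt_top ENNReal.coe_lt_top ?_
      have h1 : μ.map e = μ.map em := rfl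
      rw [h1, em.restrict_map, lintegral_map_equiv]
      have h2 : em ⁻¹' (e.symm ⁻¹' U ∩ {z | (D ∘ e.symm) z ≠ 0}) = U ∩ {z | D z ≠ 0} := by
        ext z
        change e.symm (e z) ∈ U ∧ D (e.symm (e z)) ≠ 0 ↔ _
        rw [e.symm_apply_apply]; rfl
      rw [h2]
      refine lt_of_eq_of_lt (lintegral_congr fun z => ?_) hL
      change ‖f (e.symm (e z))‖ₑ ^ 2 = _
      rw [e.symm_apply_apply])
  refine ⟨g ∘ e, ?_, fun z hz hDz => ?_⟩
  · refine DifferentiableOn.comp (t := e.symm ⁻¹' U) hg1 e.differentiable.differentiableOn ?_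
    intro z hz
    change e.symm (e z) ∈ U
    rwa [e.symm_apply_apply]
  · have := hg2 (e z) (by change e.symm (e z) ∈ U; rwa [e.symm_apply_apply])
      (by simpa using hDz)
    simpa using this

end

end Crest.Agent.X261.Gauss
end

-- ▼ part X261/Plk/Np
section

/-!
# Row 261, GAUSS-LIN (helper91), file `Np`: the form `η^r ∧ τ` has no poles (flat version)

* `ev_nf`, `mem_closure_ne`, `eq_of_dense` : identity theorem and density;
* `riemann_bdd`, `ext_cop` : removable singularities;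
* `sp_ext` : scalar components of `Sp` extend holomorphically across `τ = 0`.
-/

set_option autoImplicit false
set_option linter.unusedSectionVars false

open Set Filter Topology Metric MeasureTheory
open scoped ENNReal

namespace Crest.Agent.X261.Plk

open Crest.Agent.R273.Fock_243 Crest.Agent.R275.Geo
open Crest.Agent.R281.Kd_22 (CopF)
open Crest.Agent.X261.Gauss.NP (dA tau an_dA an_tau np_vol)

noncomputable section

theorem eq_of_dense {Y V : Type*} [TopologicalSpace Y] [TopologicalSpace V] [T2Space V]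
    {f g : Y → V} {x : Y} {D : Set Y} (hf : ContinuousAt f x) (hg : ContinuousAt g x)
    (hx : x ∈ closure D) (h : ∀ᶠ y in 𝓝 x, y ∈ D → f y = g y) : f x = g x :=
  tendsto_nhds_unique_of_frequently_eq hf hg
    (((mem_closure_iff_frequently.1 hx).and_eventually h).mono fun _ hw => hw.2 hw.1)

theorem mem_closure_ne {Y V : Type*} [TopologicalSpace Y] [Zero V] {f : Y → V} {x : Y}
    (h : ¬ ∀ᶠ y in 𝓝 x, f y = 0) : x ∈ closure {y | f y ≠ 0} :=
  mem_closure_iff_frequently.2 (Filter.not_eventually.1 h)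

section flat

variable {E : Type} [NormedAddCommGroup E] [NormedSpace ℂ E]

theorem ev_nf {V : Type*} [NormedAddCommGroup V] [NormedSpace ℂ V] [CompleteSpace V]
    {f : E → V} {p : E}
    (hf : AnalyticAt ℂ f p) (h : ¬ ∀ᶠ z in 𝓝 p, f z = 0) :
    ∀ᶠ z in 𝓝 p, ¬ ∀ᶠ y in 𝓝 z, f y = 0 := by
  obtain ⟨ρ, hρ, hA⟩ := Metric.eventually_nhds_iff_ball.1 hf.eventually_analyticAt
  filter_upwards [ball_mem_nhds p hρ] with z hz hcon
  have h1 : EqOn f 0 (ball p ρ) :=
    AnalyticOnNhd.eqOn_zero_of_preconnected_of_eventuallyEq_zero hA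
      (convex_ball p ρ).isPreconnected hz hcon
  exact h (Filter.eventually_of_mem (ball_mem_nhds p hρ) h1)

variable [FiniteDimensional ℂ E]

/-- Riemann's theorem for bounded functions -/
theorem riemann_bdd {f D : E → ℂ} {p : E} (hD : AnalyticAt ℂ D p) (h0 : ¬ ∀ᶠ z in 𝓝 p, D z = 0)
    {M : ℝ} (hf : ∀ᶠ z in 𝓝 p, D z ≠ 0 → DifferentiableAt ℂ f z ∧ ‖f z‖ ≤ M) :
    ∃ g : E → ℂ, AnalyticAt ℂ g p ∧ ∀ᶠ z in 𝓝 p, D z ≠ 0 → g z = f z := by
  have : ProperSpace E := FiniteDimensional.proper ℂ E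
  borelize E
  obtain ⟨K⟩ : Nonempty (TopologicalSpace.PositiveCompacts E) := inferInstance
  let μ : Measure E := Measure.addHaarMeasure K
  obtain ⟨ρ, hρ, h⟩ := Metric.eventually_nhds_iff_ball.1
    (hD.eventually_analyticAt.and ((ev_nf hD h0).and hf))
  have hU : IsOpen (ball p ρ ∩ {z | D z ≠ 0}) :=
    ContinuousOn.isOpen_inter_preimage (t := {0}ᶜ)
      (fun z hz => (h z hz).1.continuousAt.continuousWithinAt) isOpen_ball isOpen_compl_singleton
  obtain ⟨g, hg, e⟩ := Gauss.riemann_L2 μ (f := f) isOpen_ball (fun z hz => (h z hz).1)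
    (fun z hz => (h z hz).2.1) (fun z hz => ((h z hz.1).2.2 hz.2).1.differentiableWithinAt) (by
      calc ∫⁻ z in ball p ρ ∩ {z | D z ≠ 0}, ‖f z‖ₑ ^ 2 ∂μ
          ≤ ∫⁻ _ in ball p ρ ∩ {z | D z ≠ 0}, ENNReal.ofReal M ^ 2 ∂μ := by
            refine setLIntegral_mono' hU.measurableSet fun z hz => ?_
            gcongr
            rw [← ofReal_norm]
            exact ENNReal.ofReal_le_ofReal ((h z hz.1).2.2 hz.2).2
        _ < ⊤ := by
            rw [setLIntegral_const]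
            exact ENNReal.mul_lt_top (ENNReal.pow_lt_top ENNReal.ofReal_lt_top)
              ((measure_mono inter_subset_left).trans_lt measure_ball_lt_top))
  exact ⟨g, R266.SCV.analyticOnNhd_of_differentiableOn isOpen_ball hg p (mem_ball_self hρ),
    Filter.eventually_of_mem (ball_mem_nhds p hρ) e⟩

/-- extension across the common zeros of a coprime family -/
theorem ext_cop {κ : Type} [Fintype κ] {t : κ → E → ℂ} {p : E} (ht : ∀ j, AnalyticAt ℂ (t j) p)
    (hc : CopF t p) {D s : E → ℂ} (hD : AnalyticAt ℂ D p) (h0 : ¬ ∀ᶠ z in 𝓝 p, D z = 0)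
    (hDt : ∀ᶠ z in 𝓝 p, D z ≠ 0 → ∃ j, t j z ≠ 0)
    (hs : ∀ᶠ z in 𝓝 p, (∃ j, t j z ≠ 0) → ∃ g : E → ℂ, AnalyticAt ℂ g z ∧
      ∀ᶠ y in 𝓝 z, D y ≠ 0 → g y = s y) :
    ∃ g : E → ℂ, AnalyticAt ℂ g p ∧ ∀ᶠ z in 𝓝 p, D z ≠ 0 → g z = s z := by
  obtain ⟨O, hO, hOo, hpO⟩ := _root_.eventually_nhds_iff.1
    ((eventually_all.2 fun j => (ht j).eventually_analyticAt).and ((ev_nf hD h0).and hs))
  have hU : IsOpen (O ∩ {z | ∃ j, t j z ≠ 0}) := by
    rw [isOpen_iff_mem_nhds]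
    rintro z ⟨h1, j, h2⟩
    filter_upwards [hOo.mem_nhds h1, ((hO z h1).1 j).continuousAt.eventually_ne h2] with y h3 h4
    exact ⟨h3, j, h4⟩
  obtain ⟨G, hG, e⟩ := glue_ext (D := {z | D z ≠ 0}) (F := s) hU
    (fun z hz => mem_closure_ne (hO z hz.1).2.1) fun z hz => (hO z hz.1).2.2 hz.2
  obtain ⟨N, hN, M, hM⟩ := Gauss.bdd_cop ht hc (hOo.mem_nhds hpO) (g := G)
    fun z h1 h2 => (hG z ⟨h1, h2⟩).differentiableAt
  obtain ⟨g, hg, e'⟩ := riemann_bdd (f := G) hD h0 (M := M) (by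
    filter_upwards [hN, hDt, hOo.mem_nhds hpO] with z h1 h2 h3 h4
    exact ⟨(hG z ⟨h3, h2 h4⟩).differentiableAt, hM z h1 (h2 h4)⟩)
  refine ⟨g, hg, ?_⟩
  filter_upwards [e', hDt, hOo.mem_nhds hpO] with z h1 h2 h3 h4
  rw [h1 h4, e ⟨⟨h3, h2 h4⟩, h4⟩]

end flat

variable {n q r : ℕ} {H : Type} [NormedAddCommGroup H] [NormedSpace ℂ H]

/-- local boundedness where one minor divides all the others -/
theorem sp_bdd {W : Type*} [NormedAddCommGroup W] [NormedSpace ℂ W] (G : H [⋀^Fin r]→L[ℂ] W)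
    {a : Cn n → Cn q} {S : Cn n → FI n → H} {z : Cn n} (ha : AnalyticAt ℂ a z)
    (hS : ∀ᶠ y in 𝓝 z, ∀ I, DifferentiableAt ℂ (fun y => S y I) y)
    (hh : ∀ᶠ y in 𝓝 z, Hor (dA a y) (S y)) {J : FI n}
    (hd : ∀ I, ∃ c : Cn n → ℂ, AnalyticAt ℂ c z ∧ ∀ᶠ y in 𝓝 z, tau a y I = c y * tau a y J)
    (hne : ¬ ∀ᶠ y in 𝓝 z, tau a y J = 0) {N : Set (Cn n)} (hN : N ∈ 𝓝 z) {C : ℝ≥0∞}
    (hC : C < ⊤)
    (hb : ∀ K ⊆ N, IsCompact K → ∀ I, ∫⁻ y in K, ‖S y I‖ₑ ^ 2 ≤ C * volume (a '' K)) :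
    ∃ M : ℝ, ∀ᶠ y in 𝓝 z, tau a y J ≠ 0 → ∀ I, ‖Sp G.toAlternatingMap (dA a y) (S y) I‖ ≤ M := by
  choose c hc using fun I => np_vol (g := fun y => S y I) ha (hS.mono fun y hy => hy I) hd hne hN
    hC fun K h1 h2 => hb K h1 h2 I
  obtain ⟨C', -, hC'⟩ := exists_norm_Sp (n := n) G q
  have h1 : ContinuousAt (fun y => ‖tau a y‖) z :=
    (continuousAt_pi.2 fun I => (an_tau ha I).continuousAt).norm
  refine ⟨C' * (‖tau a z‖ + 1) * (∑ I, |c I|) ^ r, ?_⟩
  filter_upwards [hh, eventually_all.2 hc, h1.eventually (gt_mem_nhds (lt_add_one _))]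
    with y h2 h3 h4 h5
  refine (hC' (dA a y) (S y) _ _ fun I => (norm_le_pi_norm (tau a y) I).trans h4.le).2 h2 J h5
    fun I => (h3 I).trans (mul_le_mul_of_nonneg_right ((le_abs_self _).trans ?_) (norm_nonneg _))
  exact Finset.single_le_sum (f := fun I => |c I|) (fun _ _ => abs_nonneg _) (Finset.mem_univ I)

/-- **no poles**, scalar version -/
theorem sp_ext (G : H [⋀^Fin r]→L[ℂ] ℂ) {a : Cn n → Cn q} {S : Cn n → FI n → H} {z : Cn n}
    (ha : AnalyticAt ℂ a z) (hS : ∀ᶠ y in 𝓝 z, ∀ I, DifferentiableAt ℂ (fun y => S y I) y)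
    (hh : ∀ᶠ y in 𝓝 z, Hor (dA a y) (S y)) {d : Cn n → ℂ} {t : FI n → Cn n → ℂ}
    (ht : ∀ I, AnalyticAt ℂ (t I) z) (hc : CopF t z)
    (hdt : ∀ᶠ y in 𝓝 z, ∀ I, tau a y I = d y * t I y) (hne : ¬ ∀ᶠ y in 𝓝 z, tau a y = 0)
    {N : Set (Cn n)} (hN : N ∈ 𝓝 z) {C : ℝ≥0∞} (hC : C < ⊤)
    (hb : ∀ K ⊆ N, IsCompact K → ∀ I, ∫⁻ y in K, ‖S y I‖ₑ ^ 2 ≤ C * volume (a '' K))
    (I : FI n) : ∃ g : Cn n → ℂ, AnalyticAt ℂ g z ∧
      ∀ᶠ y in 𝓝 z, tau a y ≠ 0 → g y = Sp G.toAlternatingMap (dA a y) (S y) I := by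
  obtain ⟨J₀, hJ₀⟩ : ∃ J₀, ¬ ∀ᶠ y in 𝓝 z, tau a y J₀ = 0 := by
    by_contra hcon
    push Not at hcon
    exact hne ((eventually_all.2 hcon).mono fun y hy => funext hy)
  have hnf := ev_nf (an_tau ha J₀) hJ₀
  have hdiff : ∀ᶠ y in 𝓝 z, tau a y ≠ 0 →
      DifferentiableAt ℂ (fun y => Sp G.toAlternatingMap (dA a y) (S y) I) y := by
    filter_upwards [ha.eventually_analyticAt, hS, hh.eventually_nhds] with y h1 h2 h3 h4
    exact differentiableAt_Sp G (fun k j => (an_dA h1 k j).differentiableAt) h2 h3 h4 I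
  obtain ⟨g, hg, e⟩ := ext_cop ht hc (D := fun y => tau a y J₀)
    (s := fun y => Sp G.toAlternatingMap (dA a y) (S y) I) (an_tau ha J₀) hJ₀
    (hdt.mono fun y hy h0 => ⟨J₀, fun h1 => h0 (by rw [hy, h1, mul_zero])⟩) (by
      filter_upwards [ha.eventually_analyticAt, hS.eventually_nhds, hh.eventually_nhds,
        hdt.eventually_nhds, eventually_all.2 fun I => (ht I).eventually_analyticAt, hnf,
        eventually_mem_nhds_iff.2 hN, hdiff.eventually_nhds] with y h1 h2 h3 h4 h5 h6 h7 h8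
      rintro ⟨J, hJ⟩
      have h9 : ∀ I, ∀ᶠ w in 𝓝 y, tau a w I = (t I w / t J w) * tau a w J := fun I => by
        filter_upwards [h4, (h5 J).continuousAt.eventually_ne hJ] with w h10 h11
        rw [h10, h10]
        field_simp
      obtain ⟨M, hM⟩ := sp_bdd G h1 h2 h3 (J := J) (fun I => ⟨_, (h5 I).div (h5 J) hJ, h9 I⟩)
        (fun h10 => h6 (by
          filter_upwards [h10, h9 J₀] with w h11 h12
          rw [h12, h11, mul_zero])) h7 hC hb
      refine riemann_bdd (an_tau h1 J₀) h6 (M := M) ?_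
      filter_upwards [hM, h8, h9 J₀] with w h10 h11 h12 h13
      exact ⟨h11 fun h14 => h13 (congrFun h14 J₀),
        h10 (fun h14 => h13 (by rw [h12, h14, mul_zero])) I⟩)
  refine ⟨g, hg, ?_⟩
  filter_upwards [hg.eventually_analyticAt, e.eventually_nhds, hnf, hdiff] with y h1 h2 h3 h4 h5
  exact eq_of_dense h1.continuousAt (h4 h5).continuousAt (mem_closure_ne h3) h2

end

end Crest.Agent.X261.Plk
end

-- ▼ part X261/Plk/Wt

/-!
# Row 261, GAUSS-LIN (helper91), file `Wt`: `η^r ∧ τ = e ⊗ Ψ` with `Ψ` holomorphic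

* `ident_fam` : the identity theorem for families over a connected cover;
* `Fr.*` : the forms of a `Gauss.Frm` in charts (`hor`, `th_tr`, `th_eqv`, `Sp_tr`, `tau_nf`);
* `Psi`, `exists_psi`, `Psi.tr`, `Psi.eqv`.
-/

set_option autoImplicit false
set_option linter.unusedSectionVars false

open Set Filter Topology Matrix MeasureTheory
open scoped ENNReal InnerProductSpace

namespace Crest.Agent.X261.Plk

open Crest.Agent.R273.Fock_243 Crest.Agent.R275.Geo Crest.Agent.R275.Core144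
open Crest.Agent.R275.OmT75 (dj dl dj_congr dl_chain)
open Crest.Agent.R273.UCov_914
open Crest.Agent.R281.Kd_22 (Hm Cop ev_iff ev_iff' hm_chart hm_of_holAt copF_of_cop)
open Crest.Agent.X261.Gauss (Frm dV)
open Crest.Agent.X261.Gauss.NP (dA tau an_dA an_tau)
open Crest.Agent.X261.Top (dW TOm)

attribute [-instance] CStarModule.toInner

noncomputable section

variable {n q r : ℕ} {X : Type} [TopologicalSpace X] {A : Atl n X} {G : Type} [Group G]
  {D : MonD A G}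

/-- the identity theorem for families over a connected cover -/
theorem ident_fam [PreconnectedSpace (D.cov G)] {V : Type*} [NormedAddCommGroup V]
    [NormedSpace ℂ V] [CompleteSpace V] {f : A.ι → G → X → V}
    (hf : ∀ i v, AnalyticOnNhd ℂ (fun z => f i v ((A.e i).symm z)) (A.e i).target)
    (htr : ∀ i j v, ∀ x ∈ (A.e i).source ∩ (A.e j).source,
      f j (D.c i j x * v) x = 0 → f i v x = 0)
    (h0 : ∃ i v, ∃ x ∈ (A.e i).source, ∀ᶠ y in 𝓝 x, f i v y = 0) :
    ∀ i v, ∀ x ∈ (A.e i).source, f i v x = 0 := by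
  let Z : Set (D.cov G) :=
    {e | ∃ i, D.pr e ∈ (A.e i).source ∧ ∀ᶠ y in 𝓝 (D.pr e), f i (D.co i e) y = 0}
  have hZ : ∀ {i : A.ι} {e : D.cov G}, D.pr e ∈ (A.e i).source → e ∈ Z →
      ∀ᶠ y in 𝓝 (D.pr e), f i (D.co i e) y = 0 := by
    rintro i e hi ⟨j, hj, h⟩
    filter_upwards [h, (A.e i).open_source.mem_nhds hi, (A.e j).open_source.mem_nhds hj]
      with y h1 h2 h3
    refine htr i j _ y ⟨h2, h3⟩ ?_
    rwa [D.co_eq hi hj, smul_eq_mul, D.c_loc i j _ ⟨hi, hj⟩ y ⟨h2, h3⟩] at h1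
  have hZo : IsOpen Z := by
    rw [isOpen_iff_mem_nhds]
    rintro e ⟨j, hj, h⟩
    filter_upwards [D.co_eventually hj,
      D.continuous_pr.continuousAt.eventually h.eventually_nhds] with e' h1 h2
    exact ⟨j, h1.1, h1.2 ▸ h2⟩
  have hZc : IsClosed Z := by
    rw [← isOpen_compl_iff, isOpen_iff_mem_nhds]
    intro e he
    obtain ⟨j, hj⟩ := A.cover (D.pr e)
    have h1 := ev_nf (hf j (D.co j e) _ ((A.e j).map_source hj))
      fun h => he ⟨j, hj, (ev_iff hj).2 h⟩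
    filter_upwards [D.co_eventually hj,
      D.continuous_pr.continuousAt.eventually ((ev_iff' hj).1 h1)] with e' h2 h3 h4
    exact h3 ((ev_iff h2.1).1 (h2.2 ▸ hZ h2.1 h4))
  obtain ⟨i₀, v₀, x₀, hx₀, h1⟩ := h0
  have h2 : Z = univ := IsClopen.eq_univ ⟨hZc, hZo⟩
    ⟨D.pt i₀ v₀ x₀, i₀, hx₀, by rw [D.co_pt v₀ hx₀]; exact h1⟩
  intro i v x hx
  have h3 := (hZ (e := D.pt i v x) hx (h2 ▸ mem_univ _)).self_of_nhds
  rwa [D.co_pt v hx] at h3

/-- parallel to a scalar form -/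
def ParV {W : Type*} [AddCommGroup W] [Module ℂ W] (e : FI n → ℂ) (s : FI n → W) : Prop :=
  ∀ I I', e I' • s I = e I • s I'

section parv

variable {W : Type*} [AddCommGroup W] [Module ℂ W] {e : FI n → ℂ} {s : FI n → W}


theorem ParV.eq (h : ParV e s) {I₁ : FI n} (h1 : e I₁ ≠ 0) (I : FI n) :
    s I = e I • ((e I₁)⁻¹ • s I₁) := by
  rw [smul_comm, ← h I I₁, smul_smul, inv_mul_cancel₀ h1, one_smul]

theorem ParV.mv (h : ParV e s) (c : ℂ) (B : Matrix (FI n) (FI n) ℂ) :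
    ParV (c • (B *ᵥ e)) (mv B s) := by
  by_cases he : e = 0
  · intro I I'
    simp [he]
  · obtain ⟨I₁, h1⟩ := Function.ne_iff.1 he
    rw [show s = fun I => e I • ((e I₁)⁻¹ • s I₁) from funext (h.eq h1), mv_rk1]
    intro I I'
    simp only [Pi.smul_apply, smul_eq_mul, smul_smul]
    congr 1
    ring

end parv

variable {H : Type} [NormedAddCommGroup H] [InnerProductSpace ℂ H] (Φ : Frm D q H)

namespace Fr

/-- the map `a` in a chart -/
def fa (i : A.ι) (v : G) : Cn n → Cn q := fun z => Φ.a i v ((A.e i).symm z)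

theorem an_ak (i : A.ι) (v : G) (k : Fin q) {z : Cn n} (hz : z ∈ (A.e i).target) :
    AnalyticAt ℂ (fun z => Φ.a i v ((A.e i).symm z) k) z :=
  R266.SCV.analyticOnNhd_of_differentiableOn (isOpen_ti isOpen_univ) (Φ.a_hol i v k) z
    ⟨hz, mem_univ _⟩

theorem an_fa (i : A.ι) (v : G) {z : Cn n} (hz : z ∈ (A.e i).target) :
    AnalyticAt ℂ (fa Φ i v) z :=
  ((EuclideanSpace.equiv (Fin q) ℂ).symm.analyticAt _).comp
    (AnalyticAt.pi fun k => an_ak Φ i v k hz)

theorem th_eq (i : A.ι) (v : G) {z : Cn n} (hz : z ∈ (A.e i).target) :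
    dV A i (Φ.a i v) ((A.e i).symm z) = dA (fa Φ i v) z := by
  funext k b
  unfold dV dl dA
  rw [(A.e i).right_inv hz, dj_eq_fderiv (an_ak Φ i v k hz).differentiableAt]
  have h1 : HasFDerivAt (fun z => Φ.a i v ((A.e i).symm z) k)
      ((EuclideanSpace.proj k : Cn q →L[ℂ] ℂ).comp (fderiv ℂ (fa Φ i v) z)) z :=
    (EuclideanSpace.proj k : Cn q →L[ℂ] ℂ).hasFDerivAt.comp z
      (an_fa Φ i v hz).differentiableAt.hasFDerivAt
  rw [h1.fderiv]
  rfl

theorem tau_eq (i : A.ι) (v : G) {z : Cn n} (hz : z ∈ (A.e i).target) :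
    dW A i (Φ.a i v) ((A.e i).symm z) = tau (fa Φ i v) z := by
  rw [Gauss.dW_eq, th_eq Φ i v hz]; rfl

theorem an_th (i : A.ι) (v : G) (k : Fin q) (b : Fin n) {z : Cn n} (hz : z ∈ (A.e i).target) :
    AnalyticAt ℂ (fun z => dV A i (Φ.a i v) ((A.e i).symm z) k b) z := by
  refine (an_dA (an_fa Φ i v hz) k b).congr ?_
  filter_upwards [(A.e i).open_target.mem_nhds hz] with y hy
  rw [th_eq Φ i v hy]

theorem an_dW (i : A.ι) (v : G) (I : FI n) {z : Cn n} (hz : z ∈ (A.e i).target) :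
    AnalyticAt ℂ (fun z => dW A i (Φ.a i v) ((A.e i).symm z) I) z := by
  refine (an_tau (an_fa Φ i v hz) I).congr ?_
  filter_upwards [(A.e i).open_target.mem_nhds hz] with y hy
  rw [tau_eq Φ i v hy]

theorem diff_S (i : A.ι) (v : G) (I : FI n) {z : Cn n} (hz : z ∈ (A.e i).target) :
    DifferentiableAt ℂ (fun z => Φ.S i v ((A.e i).symm z) I) z :=
  (Φ.S_hol i v I).differentiableAt ((A.e i).open_target.mem_nhds hz)

theorem hor (i : A.ι) (v : G) {x : X} (hx : x ∈ (A.e i).source) :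
    Hor (dV A i (Φ.a i v) x) (Φ.S i v x) := ⟨Φ.deg i v x hx, Φ.hor i v x hx⟩

theorem th_tr (i j : A.ι) (v : G) {x : X} (hx : x ∈ (A.e i).source ∩ (A.e j).source) :
    dV A i (Φ.a i v) x = fun k => (Jm A i j x)ᵀ *ᵥ dV A j (Φ.a j (D.c i j x * v)) x k := by
  obtain ⟨l, hl⟩ := Φ.a_tr i j v x hx
  funext k b
  have h1 : dV A i (Φ.a i v) x k b
      = dl A i b (fun y => Φ.a j (D.c i j x * v) y k + l k) x := by
    refine dj_congr ((ev_iff (P := fun y => Φ.a i v y k = Φ.a j (D.c i j x * v) y k + l k)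
      hx.1).1 ?_)
    filter_upwards [((A.e i).open_source.inter (A.e j).open_source).mem_nhds hx] with y hy
    rw [hl y hy]; rfl
  rw [h1, dl_chain (j := j) (((an_ak Φ j _ k ((A.e j).map_source hx.2)).differentiableAt.add_const
    (l k)).restrictScalars ℝ) hx]
  refine Finset.sum_congr rfl fun c _ => ?_
  simp only [dV, dl, dj, fderiv_add_const, Matrix.transpose_apply, Jm_apply, smul_eq_mul]

theorem th_lin (i : A.ι) {v v' : G} {L : Matrix (Fin q) (Fin q) ℂ} {l : Fin q → ℂ}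
    (h : ∀ x ∈ (A.e i).source, ∀ k, Φ.a i v' x k = ∑ k', L k k' * Φ.a i v x k' + l k) {x : X}
    (hx : x ∈ (A.e i).source) :
    dV A i (Φ.a i v') x = fun k => ∑ k', L k k' • dV A i (Φ.a i v) x k' := by
  funext k b
  have hz := (A.e i).map_source hx
  have h1 : HasFDerivAt (fun z => Φ.a i v' ((A.e i).symm z) k)
      (∑ k', L k k' • fderiv ℂ (fun z => Φ.a i v ((A.e i).symm z) k') (A.e i x)) (A.e i x) := by
    refine ((HasFDerivAt.fun_sum fun k' _ => (an_ak Φ i v k' hz).differentiableAt.hasFDerivAt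
      |>.const_mul (L k k')).add_const (l k)).congr_of_eventuallyEq ?_
    filter_upwards [(A.e i).open_target.mem_nhds hz] with z hz'
    exact h _ ((A.e i).map_target hz') k
  simp only [dV, dl, Finset.sum_apply, Pi.smul_apply,
    dj_eq_fderiv (an_ak Φ i _ _ hz).differentiableAt, h1.fderiv, _root_.sum_apply,
    _root_.smul_apply]

theorem tau_tr (i j : A.ι) (v : G) {x : X} (hx : x ∈ (A.e i).source ∩ (A.e j).source) :
    dW A i (Φ.a i v) x = Gam (Jm A i j x)ᵀ *ᵥ dW A j (Φ.a j (D.c i j x * v)) x := by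
  rw [Gauss.dW_eq, Gauss.dW_eq, th_tr Φ i j v hx, Gam_wdg]

/-- the form `η^r ∧ τ` of the frame -/
def sp {W : Type*} [AddCommGroup W] [Module ℂ W] (T : H [⋀^Fin r]→ₗ[ℂ] W) (i : A.ι) (v : G)
    (x : X) : FI n → W := Sp T (dV A i (Φ.a i v) x) (Φ.S i v x)

theorem sp_tr {W : Type*} [AddCommGroup W] [Module ℂ W] (T : H [⋀^Fin r]→ₗ[ℂ] W) (i j : A.ι)
    (v : G) {x : X} (hx : x ∈ (A.e i).source ∩ (A.e j).source) :
    sp Φ T i v x = mv (Gam (Jm A i j x)ᵀ) (sp Φ T j (D.c i j x * v) x) := by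
  unfold sp
  rw [th_tr Φ i j v hx, Φ.S_tr i j v x hx]
  exact (hor Φ j _ hx.2).Sp_gam T _

/-- `τ` does not vanish identically near any point -/
theorem tau_nf [PreconnectedSpace (D.cov G)] (i : A.ι) (v : G) {x : X}
    (hx : x ∈ (A.e i).source) : ¬ ∀ᶠ y in 𝓝 x, dW A i (Φ.a i v) y = 0 := fun h => by
  obtain ⟨j, w, y, hy, h1⟩ := Φ.tau_ne
  exact h1 (ident_fam (D := D) (f := fun i v => dW A i (Φ.a i v))
    (fun i v z hz => AnalyticAt.pi fun I => an_dW Φ i v I hz)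
    (fun i j v x hx h0 => by rw [tau_tr Φ i j v hx, h0, Matrix.mulVec_zero]) ⟨i, v, x, hx, h⟩
    j w y hy)

variable {W : Type} [NormedAddCommGroup W] [InnerProductSpace ℂ W] [CompleteSpace W]
  (T : H [⋀^Fin r]→L[ℂ] W)

theorem diff_sp (i : A.ι) (v : G) {z : Cn n} (hz : z ∈ (A.e i).target)
    (h0 : dW A i (Φ.a i v) ((A.e i).symm z) ≠ 0) (I : FI n) :
    DifferentiableAt ℂ (fun z => sp Φ T.toAlternatingMap i v ((A.e i).symm z) I) z :=
  differentiableAt_Sp T (th := fun z => dV A i (Φ.a i v) ((A.e i).symm z))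
    (fun k b => (an_th Φ i v k b hz).differentiableAt) (fun I => diff_S Φ i v I hz)
    (Filter.eventually_of_mem ((A.e i).open_target.mem_nhds hz) fun _ hy =>
      hor Φ i v ((A.e i).map_target hy)) h0 I

variable {L : LB A} {p : ℕ} {e : A.ι → X → FI n → ℂ}

theorem an_e (he : TOm L p e) (i : A.ι) (I : FI n) {z : Cn n} (hz : z ∈ (A.e i).target) :
    AnalyticAt ℂ (fun z => e i ((A.e i).symm z) I) z :=
  R266.SCV.analyticOnNhd_of_differentiableOn (isOpen_ti isOpen_univ) (he.hol i I) z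
    ⟨hz, mem_univ _⟩

/-- parallelism propagates -/
theorem par_all [PreconnectedSpace (D.cov G)] (he : TOm L p e)
    (hp : ∃ i v, ∃ x ∈ (A.e i).source, ∀ᶠ y in 𝓝 x, ParV (e i y) (sp Φ T.toAlternatingMap i v y))
    (i : A.ι) (v : G) {x : X} (hx : x ∈ (A.e i).source) :
    ParV (e i x) (sp Φ T.toAlternatingMap i v x) := by
  set f : A.ι → G → X → FI n × FI n × FI n → W := fun i v x K =>
    e i x K.2.2 • Th T.toAlternatingMap (dV A i (Φ.a i v) x) (Φ.S i v x) K.1 K.2.1 -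
      e i x K.2.1 • Th T.toAlternatingMap (dV A i (Φ.a i v) x) (Φ.S i v x) K.1 K.2.2 with hf
  have key : ∀ i v, ∀ x ∈ (A.e i).source,
      f i v x = 0 ↔ ParV (e i x) (sp Φ T.toAlternatingMap i v x) := by
    intro i v x hx
    have h1 : ∀ K, f i v x K = dW A i (Φ.a i v) x K.1 ^ r •
        (e i x K.2.2 • sp Φ T.toAlternatingMap i v x K.2.1 -
          e i x K.2.1 • sp Φ T.toAlternatingMap i v x K.2.2) := fun K => by
      simp only [hf, (hor Φ i v hx).Th_eq, Pi.smul_apply, smul_sub, Gauss.dW_eq, sp]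
      rw [smul_comm (e i x K.2.2), smul_comm (e i x K.2.1)]
    constructor
    · intro h0 I I'
      by_cases hτ : Top.wdg (dV A i (Φ.a i v) x) = 0
      · simp [sp, Sp_of_zero _ hτ]
      · obtain ⟨J, hJ⟩ := Function.ne_iff.1 hτ
        have h2 := congrFun h0 (J, I, I')
        rw [h1] at h2
        exact sub_eq_zero.1 ((smul_eq_zero.1 h2).resolve_left (pow_ne_zero _ hJ))
    · intro h0
      funext K
      rw [h1, h0 K.2.1 K.2.2, sub_self, smul_zero, Pi.zero_apply]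
  refine (key i v x hx).1 (ident_fam (D := D) (f := f) (fun i v => ?_) (fun i j v x hx h0 => ?_)
    ?_ i v x hx)
  · refine R266.SCV.analyticOnNhd_of_differentiableOn (A.e i).open_target fun z hz =>
      (differentiableAt_pi.2 fun K => ?_).differentiableWithinAt
    have h1 := differentiableAt_Th T (th := fun z => dV A i (Φ.a i v) ((A.e i).symm z))
      (fun k b => (an_th Φ i v k b hz).differentiableAt) (fun I => diff_S Φ i v I hz) K.1
    exact ((an_e he i _ hz).differentiableAt.smul (h1 _)).sub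
      ((an_e he i _ hz).differentiableAt.smul (h1 _))
  · rw [key i v x hx.1, he.tr i j x hx, sp_tr Φ _ i j v hx]
    exact ((key j _ x hx.2).1 h0).mv _ _
  · obtain ⟨i, v, x, hx, h⟩ := hp
    refine ⟨i, v, x, hx, ?_⟩
    filter_upwards [h, (A.e i).open_source.mem_nhds hx] with y h1 h2 using (key i v y h2).2 h1

/-- the good points of a sheet -/
def gd (e : A.ι → X → FI n → ℂ) (i : A.ι) (v : G) : Set X :=
  {x | x ∈ (A.e i).source ∧ dW A i (Φ.a i v) x ≠ 0 ∧ e i x ≠ 0}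

theorem cont_of_an {V : Type*} [TopologicalSpace V] {f : X → V} {i : A.ι} {x : X}
    (hx : x ∈ (A.e i).source) (h : ContinuousAt (fun z => f ((A.e i).symm z)) (A.e i x)) :
    ContinuousAt f x := by
  refine (ContinuousAt.comp (g := fun z => f ((A.e i).symm z)) h
    ((A.e i).continuousAt hx)).congr ?_
  filter_upwards [(A.e i).open_source.mem_nhds hx] with y hy
  simp [(A.e i).left_inv hy]

theorem gd_dense [PreconnectedSpace (D.cov G)]
    (hc : ∀ i, ∀ x ∈ (A.e i).source, Cop A (fun S y => e i y S) x) (i : A.ι) (v : G) {x : X}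
    (hx : x ∈ (A.e i).source) : x ∈ closure (gd Φ e i v) := by
  have h1 : IsOpen {y | y ∈ (A.e i).source ∧ dW A i (Φ.a i v) y ≠ 0} := by
    rw [isOpen_iff_mem_nhds]
    rintro y ⟨h1, h2⟩
    filter_upwards [(A.e i).open_source.mem_nhds h1, (cont_of_an (f := dW A i (Φ.a i v)) h1
      (continuousAt_pi.2 fun I =>
        (an_dW Φ i v I ((A.e i).map_source h1)).continuousAt)).eventually_ne h2] with w h3 h4
    exact ⟨h3, h4⟩
  have h2 : x ∈ closure ({y | y ∈ (A.e i).source ∧ dW A i (Φ.a i v) y ≠ 0} ∩ {y | e i y ≠ 0}) :=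
    Bog.mem_closure_inter (U := (A.e i).source) (U' := (A.e i).source) (A.e i).open_source h1
      (fun y hy => (A.e i).open_source.inter_closure ⟨hy, mem_closure_ne (tau_nf Φ i v hy)⟩)
      (fun y hy => mem_closure_ne fun h => Bog.cop_not_flat (hc i y hy) fun I =>
        h.mono fun w hw => congrFun hw I) ⟨hx, hx⟩
  refine closure_mono (fun y hy => ?_) h2
  exact ⟨hy.1.1, hy.1.2, hy.2⟩

/-- local scalar extension -/
theorem loc_ext [PreconnectedSpace (D.cov G)] (he : TOm L p e)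
    (hc : ∀ i, ∀ x ∈ (A.e i).source, Cop A (fun S y => e i y S) x) (i : A.ι) (v : G)
    (hp : ∀ x ∈ (A.e i).source, ParV (e i x) (sp Φ T.toAlternatingMap i v x)) (ξ : W) {x : X}
    (hx : x ∈ (A.e i).source) : ∃ c : X → ℂ, Hm A c x ∧ ∀ᶠ y in 𝓝 x, dW A i (Φ.a i v) y ≠ 0 →
      ∀ I, ⟪ξ, sp Φ T.toAlternatingMap i v y I⟫_ℂ = c y * e i y I := by
  have hz := (A.e i).map_source hx
  have htg := (A.e i).open_target.mem_nhds hz
  have hsrc := (A.e i).open_source.mem_nhds hx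
  obtain ⟨d, t, hdt⟩ := Bog.exists_loc (A := A) (x := x) (τ := dW A i (Φ.a i v))
    (fun I => Hm.of_one hx (an_dW Φ i v I hz)) (tau_nf Φ i v hx)
  obtain ⟨N, hN, C, hC, hb⟩ := Φ.bd i v _ hz
  set T' : H [⋀^Fin r]→L[ℂ] ℂ := (innerSL ℂ ξ).compContinuousAlternatingMap T with hT'
  have hT : ∀ y ∈ (A.e i).source, ∀ I, sp Φ T'.toAlternatingMap i v y I
      = ⟪ξ, sp Φ T.toAlternatingMap i v y I⟫_ℂ := fun y hy I =>
    congrFun ((hor Φ i v hy).Sp_map T.toAlternatingMap (G' := T'.toAlternatingMap)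
      (U := LinearMap.id) (V := (innerSL ℂ ξ : W →ₗ[ℂ] ℂ)) fun _ => rfl) I
  choose g hg hge using sp_ext T' (a := fa Φ i v) (S := fun z => Φ.S i v ((A.e i).symm z))
    (an_fa Φ i v hz) (Filter.eventually_of_mem htg fun y hy I => diff_S Φ i v I hy)
    (Filter.eventually_of_mem htg fun y hy => th_eq Φ i v hy ▸ hor Φ i v ((A.e i).map_target hy))
    (d := fun z => d ((A.e i).symm z)) (t := fun I z => t ((A.e i).symm z) I)
    (fun I => hdt.self_of_nhds.2.1 I i hx) (copF_of_cop hx hdt.self_of_nhds.2.2.2.2)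
    (by
      filter_upwards [(ev_iff hx).1 hdt, htg] with y h1 h2 I
      rw [← tau_eq Φ i v h2, h1.2.2.1]; rfl)
    (fun h => tau_nf Φ i v hx ((ev_iff hx).2 (by
      filter_upwards [h, htg] with y h1 h2
      rw [tau_eq Φ i v h2, h1]))) hN hC hb
  have hge' : ∀ᶠ y in 𝓝 x, dW A i (Φ.a i v) y ≠ 0 →
      ∀ I, g I (A.e i y) = ⟪ξ, sp Φ T.toAlternatingMap i v y I⟫_ℂ := by
    filter_upwards [(ev_iff' hx).1 (eventually_all.2 hge), hsrc] with y h1 h2 h3 I
    have h4 := (A.e i).map_source h2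
    rw [h1 I (by rwa [← tau_eq Φ i v h4, (A.e i).left_inv h2]), ← th_eq Φ i v h4,
      (A.e i).left_inv h2]
    exact hT y h2 I
  have hem : ∀ I, Hm A (fun y => e i y I) x := fun I =>
    hm_of_holAt (he.hol i I) isOpen_univ hx (mem_univ x)
  have hgm : ∀ I, Hm A (fun y => g I (A.e i y)) x := fun I => hm_chart hx (hg I)
  obtain ⟨c, hc1, hc2⟩ := Bog.div_cop (A := A) (x := x) (e := e i) (h := fun y I => g I (A.e i y))
    hem hgm (hc i x hx) (by
      refine eventually_all.2 fun I => eventually_all.2 fun I' => ?_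
      refine Bog.ev_eq_of_dense (V := {y | dW A i (Φ.a i v) y ≠ 0})
        (Bog.hm_ev_cont ((hgm I).mul (hem I'))) (Bog.hm_ev_cont ((hgm I').mul (hem I)))
        (Filter.eventually_of_mem hsrc fun y hy => mem_closure_ne (tau_nf Φ i v hy)) ?_
      filter_upwards [hge', hsrc] with y h1 h2 h3
      rw [h1 h3, h1 h3, mul_comm, ← inner_smul_right, hp y h2, inner_smul_right, mul_comm])
  refine ⟨c, hc1, ?_⟩
  filter_upwards [hge', hc2] with y h1 h2 h3 I
  rw [← h1 h3 I]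
  exact congrFun h2 I

end Fr

variable {W : Type} [NormedAddCommGroup W] [InnerProductSpace ℂ W] [CompleteSpace W]

/-- the holomorphic quotient `η^r ∧ τ / e` -/
structure Psi (T : H [⋀^Fin r]→L[ℂ] W) (e : A.ι → X → FI n → ℂ) (Ψ : A.ι → G → X → W) :
    Prop where
  hol : ∀ i v, AnalyticOnNhd ℂ (fun z => Ψ i v ((A.e i).symm z)) (A.e i).target
  eq : ∀ i v, ∀ x ∈ (A.e i).source, dW A i (Φ.a i v) x ≠ 0 →
    ∀ I, Fr.sp Φ T.toAlternatingMap i v x I = e i x I • Ψ i v x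

variable (T : H [⋀^Fin r]→L[ℂ] W) {L : LB A} {p : ℕ} {e : A.ι → X → FI n → ℂ}

/-- **no poles** -/
theorem exists_psi [PreconnectedSpace (D.cov G)] (he : TOm L p e)
    (hc : ∀ i, ∀ x ∈ (A.e i).source, Cop A (fun S y => e i y S) x)
    (hp : ∃ i v, ∃ x ∈ (A.e i).source, ∀ᶠ y in 𝓝 x,
      ParV (e i y) (Fr.sp Φ T.toAlternatingMap i v y)) : ∃ Ψ, Psi Φ T e Ψ := by
  classical
  have hp' := fun i v x hx => Fr.par_all Φ T he hp i v (x := x) hx
  have key : ∀ i v, ∃ Ψ : X → W,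
      AnalyticOnNhd ℂ (fun z => Ψ ((A.e i).symm z)) (A.e i).target ∧
      ∀ x ∈ Fr.gd Φ e i v, ∀ I, Fr.sp Φ T.toAlternatingMap i v x I = e i x I • Ψ x := by
    intro i v
    let F : X → W := fun x => if h : ∃ I, e i x I ≠ 0 then
      (e i x h.choose)⁻¹ • Fr.sp Φ T.toAlternatingMap i v x h.choose else 0
    have hF : ∀ x ∈ Fr.gd Φ e i v, ∀ I, Fr.sp Φ T.toAlternatingMap i v x I = e i x I • F x := by
      intro x hx I
      have h1 : ∃ I, e i x I ≠ 0 := Function.ne_iff.1 hx.2.2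
      simp only [F, dif_pos h1]
      exact (hp' i v x hx.1).eq h1.choose_spec I
    obtain ⟨g, hg, hge⟩ := vext_loc (U := (A.e i).target)
      (D := (A.e i).symm ⁻¹' Fr.gd Φ e i v) (F := fun z => F ((A.e i).symm z))
      (A.e i).open_target (fun z hz => by
        have h1 := (A.e i).map_target hz
        rw [mem_closure_iff_frequently, ← (A.e i).right_inv hz]
        exact fun h => mem_closure_iff_frequently.1 (Fr.gd_dense Φ hc i v h1)
          ((ev_iff (P := fun y => ¬ y ∈ Fr.gd Φ e i v) h1).2 h))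
      fun ξ z hz => by
        have h1 := (A.e i).map_target hz
        obtain ⟨c, h2, h3⟩ := Fr.loc_ext Φ T he hc i v (hp' i v) ξ h1
        have h4 := h2 i h1
        have h5 := (ev_iff h1).1 h3
        rw [(A.e i).right_inv hz] at h4 h5
        refine ⟨_, h4, h5.mono fun y h6 h7 => ?_⟩
        obtain ⟨I, hI⟩ := Function.ne_iff.1 h7.2.2
        have h8 := h6 h7.2.1 I
        rw [hF _ h7, inner_smul_right, mul_comm] at h8
        exact (mul_right_cancel₀ hI h8).symm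
    refine ⟨fun x => g (A.e i x), fun z hz => (hg z hz).congr ?_, fun x hx I => ?_⟩
    · filter_upwards [(A.e i).open_target.mem_nhds hz] with y hy
      rw [(A.e i).right_inv hy]
    · beta_reduce
      rw [hge ⟨(A.e i).map_source hx.1, by rwa [mem_preimage, (A.e i).left_inv hx.1]⟩]
      simp only [(A.e i).left_inv hx.1]
      exact hF x hx I
  choose Ψ h1 h2 using key
  refine ⟨Ψ, h1, fun i v x hx h0 I => ?_⟩
  have hz := (A.e i).map_source hx
  refine eq_of_dense (f := fun x => Fr.sp Φ T.toAlternatingMap i v x I)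
    (g := fun x => e i x I • Ψ i v x)
    (Fr.cont_of_an hx (Fr.diff_sp Φ T i v hz (by rwa [(A.e i).left_inv hx]) I).continuousAt)
    (Fr.cont_of_an hx ((Fr.an_e he i I hz).continuousAt.smul (h1 i v _ hz).continuousAt))
    (Fr.gd_dense Φ hc i v hx) (Eventually.of_forall fun y hy => h2 i v y hy I)

variable {Φ T} {Ψ : A.ι → G → X → W}

theorem Psi.cont (h : Psi Φ T e Ψ) (i : A.ι) (v : G) {x : X} (hx : x ∈ (A.e i).source) :
    ContinuousAt (Ψ i v) x := Fr.cont_of_an hx (h.hol i v _ ((A.e i).map_source hx)).continuousAt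

/-- the transition rule -/
theorem Psi.tr [PreconnectedSpace (D.cov G)] (h : Psi Φ T e Ψ) (he : TOm L p e)
    (hc : ∀ i, ∀ x ∈ (A.e i).source, Cop A (fun S y => e i y S) x) (i j : A.ι) (v : G) {x : X}
    (hx : x ∈ (A.e i).source ∩ (A.e j).source) :
    Ψ i v x = L.g i j x • Ψ j (D.c i j x * v) x := by
  refine eq_of_dense (g := fun y => L.g i j y • Ψ j (D.c i j x * v) y) (h.cont i v hx.1)
    ((hm_of_holAt (L.hol i j) (A.e j).open_source hx.1 hx.2).cont.smul (h.cont j _ hx.2))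
    (Fr.gd_dense Φ hc i v hx.1) ?_
  filter_upwards [(A.e j).open_source.mem_nhds hx.2] with y hy hg
  have hy' : y ∈ (A.e i).source ∩ (A.e j).source := ⟨hg.1, hy⟩
  rw [D.c_loc i j x hx y hy']
  have h1 : dW A j (Φ.a j (D.c i j y * v)) y ≠ 0 := fun h0 =>
    hg.2.1 (by rw [Fr.tau_tr Φ i j v hy', h0, Matrix.mulVec_zero])
  obtain ⟨I, hI⟩ := Function.ne_iff.1 hg.2.2
  have h2 := h.eq i v y hg.1 hg.2.1 I
  have h3 : Gam (Jm A i j y)ᵀ *ᵥ e j y = L.g i j y • e i y := by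
    rw [he.tr i j y hy', smul_smul, mul_inv_cancel₀ (L.ne_zero i j y), one_smul]
  rw [Fr.sp_tr Φ _ i j v hy', funext (h.eq j _ y hy h1), mv_rk1, h3] at h2
  refine smul_right_injective W hI ?_
  simp only [← h2, Pi.smul_apply, smul_eq_mul, smul_smul, mul_comm]

/-- the general equivariance rule -/
theorem Psi.lin [PreconnectedSpace (D.cov G)] (h : Psi Φ T e Ψ)
    (hc : ∀ i, ∀ x ∈ (A.e i).source, Cop A (fun S y => e i y S) x) (i : A.ι) {v v' : G}
    {M : Matrix (Fin q) (Fin q) ℂ} (hM : M.det ≠ 0) {U : H →ₗ[ℂ] H} {V : W →L[ℂ] W}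
    (hU : ∀ u, T (fun k => U (u k)) = V (T u))
    (h1 : ∀ x ∈ (A.e i).source,
      dV A i (Φ.a i v') x = fun k => ∑ k', M k k' • dV A i (Φ.a i v) x k')
    (h2 : ∀ x ∈ (A.e i).source, ∀ I, Φ.S i v' x I = U (Φ.S i v x I)) {x : X}
    (hx : x ∈ (A.e i).source) : Ψ i v' x = (M.det * M.det⁻¹ ^ r) • V (Ψ i v x) := by
  refine eq_of_dense (g := fun y => (M.det * M.det⁻¹ ^ r) • V (Ψ i v y)) (h.cont i v' hx)
    ((V.continuous.continuousAt.comp (h.cont i v hx)).const_smul _)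
    (Fr.gd_dense Φ hc i v hx) (Eventually.of_forall fun y hg => ?_)
  have h3 : dW A i (Φ.a i v') y ≠ 0 := by
    rw [Gauss.dW_eq, h1 y hg.1, wdg_lin]
    exact smul_ne_zero hM hg.2.1
  obtain ⟨I, hI⟩ := Function.ne_iff.1 hg.2.2
  have h4 := h.eq i v' y hg.1 h3 I
  have h5 := h.eq i v y hg.1 hg.2.1 I
  unfold Fr.sp at h4 h5
  rw [h1 y hg.1, funext (h2 y hg.1), ((Fr.hor Φ i v hg.1).map U).Sp_lin _ hM,
    (Fr.hor Φ i v hg.1).Sp_map T.toAlternatingMap (V := (V : W →ₗ[ℂ] W)) hU] at h4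
  simp only [Pi.smul_apply, h5, map_smul, ContinuousLinearMap.coe_coe] at h4
  refine smul_right_injective W hI ?_
  simp only [← h4]
  exact smul_comm _ _ _

/-- equivariance up to constants of modulus one -/
theorem Psi.eqv [PreconnectedSpace (D.cov G)] {Ψ : A.ι → G → X → Pc H r}
    (h : Psi Φ (wc H r) e Ψ) (hc : ∀ i, ∀ x ∈ (A.e i).source, Cop A (fun S y => e i y S) x)
    (g : G) : ∃ c : ℂ, ‖c‖ = 1 ∧ ∀ i v, ∀ x ∈ (A.e i).source,
      Ψ i (v * g⁻¹) x = c • pmc (Φ.ρ g).toLinearIsometry r (Ψ i v x) := by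
  obtain ⟨M, hM, h1⟩ := Φ.a_eqv g
  refine ⟨M.det * M.det⁻¹ ^ r, by simp [hM], fun i v x hx => ?_⟩
  obtain ⟨l, hl⟩ := h1 i v
  exact h.lin hc i (norm_ne_zero_iff.1 (hM ▸ one_ne_zero))
    (U := (Φ.ρ g).toLinearIsometry.toLinearMap)
    (V := (pmc (Φ.ρ g).toLinearIsometry r).toContinuousLinearMap)
    (fun u => (pmc_wc (Φ.ρ g).toLinearIsometry u).symm) (fun y hy => Fr.th_lin Φ i hl hy)
    (fun y hy I => Φ.S_eqv g i v y hy I) hx

end

end Crest.Agent.X261.Plk
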